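import Mathlib

/-!
Bit lemma for the separated monotone model of `K_{m,n}`:
for any bits `u r`, `v r` (`r : Fin m`),
`Σ_r w_r [u r ≠ v r] ≤ Σ_{r<s} [u r ≠ v s]`, with `w_r = min r (m-1-r)`,
and `Σ_r w_r = ⌊m/2⌋⌊(m-1)/2⌋`.
-/

namespace Vale.Agent.Lib.P040M

open Finset

/-- The weight `min r (m-1-r)`. -/
def w (m : ℕ) (r : Fin m) : ℕ := min r.val (m - 1 - r.val)

theorem sum_range_min (m : ℕ) :
    ∑ r ∈ range m, min r (m - 1 - r) = (m / 2) * ((m - 1) / 2) := by
  induction m using Nat.twoStepInduction with
  | zero => simp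
  | one => simp
  | more m ih _ =>
    have h1 : ∑ r ∈ range (m + 2), min r (m + 2 - 1 - r)
        = ∑ r ∈ range m, (1 + min r (m - 1 - r)) := by
      rw [Finset.sum_range_succ', Finset.sum_range_succ]
      have h0 : min 0 (m + 2 - 1 - 0) = 0 := by simp
      have h2 : min (m + 1) (m + 2 - 1 - (m + 1)) = 0 := by
        have : m + 2 - 1 - (m + 1) = 0 := by omega
        rw [this]; simp
      rw [h0, h2]
      simp only [add_zero]
      apply Finset.sum_congr rfl
      intro r hr
      have hr' : r < m := Finset.mem_range.mp hr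
      have e : m + 2 - 1 - (r + 1) = (m - 1 - r) + 1 := by omega
      rw [e]
      omega
    rw [h1, Finset.sum_add_distrib, ih]
    simp only [sum_const, card_range, smul_eq_mul, mul_one]
    rcases Nat.even_or_odd' m with ⟨j, rfl | rfl⟩
    · rcases j with _ | j
      · simp
      · have a1 : (2 * (j + 1) + 2) / 2 = j + 2 := by omega
        have a2 : (2 * (j + 1) + 2 - 1) / 2 = j + 1 := by omega
        have a3 : (2 * (j + 1)) / 2 = j + 1 := by omega
        have a4 : (2 * (j + 1) - 1) / 2 = j := by omega
        rw [a1, a2, a3, a4]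
        ring
    · have a1 : (2 * j + 1 + 2) / 2 = j + 1 := by omega
      have a2 : (2 * j + 1 + 2 - 1) / 2 = j + 1 := by omega
      have a3 : (2 * j + 1) / 2 = j := by omega
      have a4 : (2 * j + 1 - 1) / 2 = j := by omega
      rw [a1, a2, a3, a4]
      ring

/-- The sum of the weights is `⌊m/2⌋⌊(m-1)/2⌋`. -/
theorem sum_w (m : ℕ) : ∑ r : Fin m, w m r = (m / 2) * ((m - 1) / 2) := by
  have := Fin.sum_univ_eq_sum_range (fun r => min r (m - 1 - r)) m
  simp only [w]
  rw [this, sum_range_min]

/-- Counting equal pairs. -/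
theorem mono_sum {m : ℕ} (φ : Fin m → Bool) :
    2 * (∑ r : Fin m, ∑ s : Fin m, if r < s ∧ φ r = φ s then 1 else 0) + m
      = (univ.filter (fun r => φ r = true)).card ^ 2
        + (univ.filter (fun r => φ r = false)).card ^ 2 := by
  set k := (univ.filter (fun r => φ r = true)).card with hk
  set l := (univ.filter (fun r => φ r = false)).card with hl
  have h1 : ∑ r : Fin m, ∑ s : Fin m, (if φ r = φ s then 1 else 0) = k ^ 2 + l ^ 2 := by
    have hrow : ∀ r : Fin m, ∑ s : Fin m, (if φ r = φ s then 1 else 0)
        = if φ r = true then k else l := by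
      intro r
      cases hr : φ r
      · simp only [Bool.false_eq_true, if_false]
        rw [hl, Finset.card_filter]
        apply Finset.sum_congr rfl
        intro s _
        cases φ s <;> simp
      · simp only [if_true]
        rw [hk, Finset.card_filter]
        apply Finset.sum_congr rfl
        intro s _
        cases φ s <;> simp
    simp_rw [hrow]
    rw [Finset.sum_ite]
    simp only [sum_const, smul_eq_mul]
    have e : (univ.filter (fun r => ¬ φ r = true)) = univ.filter (fun r => φ r = false) := by
      ext r; simp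
    rw [e, ← hk, ← hl]
    ring
  have h2 : ∑ r : Fin m, ∑ s : Fin m, (if s < r ∧ φ r = φ s then 1 else 0)
      = ∑ r : Fin m, ∑ s : Fin m, if r < s ∧ φ r = φ s then 1 else 0 := by
    rw [Finset.sum_comm]
    apply Finset.sum_congr rfl
    intro r _
    apply Finset.sum_congr rfl
    intro s _
    have : (r < s ∧ φ s = φ r) ↔ (r < s ∧ φ r = φ s) := by
      constructor <;> rintro ⟨a, b⟩ <;> exact ⟨a, b.symm⟩
    simp only [this]
  have h3 : ∑ r : Fin m, ∑ s : Fin m, (if φ r = φ s then 1 else 0)
      = ∑ r : Fin m, ∑ s : Fin m, ((if r < s ∧ φ r = φ s then 1 else 0)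
          + (if s < r ∧ φ r = φ s then 1 else 0) + (if r = s then 1 else 0)) := by
    apply Finset.sum_congr rfl
    intro r _
    apply Finset.sum_congr rfl
    intro s _
    rcases lt_trichotomy r s with h | h | h
    · have h' : ¬ s < r := not_lt.mpr h.le
      have h'' : r ≠ s := ne_of_lt h
      by_cases e : φ r = φ s <;> simp [h, h', h'', e]
    · subst h; simp
    · have h' : ¬ r < s := not_lt.mpr h.le
      have h'' : r ≠ s := ne_of_gt h
      by_cases e : φ r = φ s <;> simp [h, h', h'', e]
  have h4 : ∑ r : Fin m, ∑ s : Fin m, (if r = s then 1 else 0) = m := by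
    simp
  rw [← h1, h3]
  simp only [Finset.sum_add_distrib]
  rw [h2, h4]
  ring

/-- Monochromatic pairs: at least `⌊m/2⌋⌊(m-1)/2⌋`. -/
theorem mono_ge {m : ℕ} (φ : Fin m → Bool) :
    (m / 2) * ((m - 1) / 2)
      ≤ ∑ r : Fin m, ∑ s : Fin m, if r < s ∧ φ r = φ s then 1 else 0 := by
  have h := mono_sum φ
  set k := (univ.filter (fun r => φ r = true)).card with hk
  set l := (univ.filter (fun r => φ r = false)).card with hl
  set T := ∑ r : Fin m, ∑ s : Fin m, if r < s ∧ φ r = φ s then 1 else 0 with hT
  have hkl : k + l = m := by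
    have := Finset.card_filter_add_card_filter_not (s := (univ : Finset (Fin m)))
      (fun r => φ r = true)
    simp only [card_univ, Fintype.card_fin] at this
    have e : (univ.filter (fun r => ¬ φ r = true)) = univ.filter (fun r => φ r = false) := by
      ext r; simp
    rw [e] at this
    exact this
  rcases Nat.even_or_odd' m with ⟨j, rfl | rfl⟩
  · rcases j with _ | j
    · simp
    · have a3 : (2 * (j + 1)) / 2 = j + 1 := by omega
      have a4 : (2 * (j + 1) - 1) / 2 = j := by omega
      rw [a3, a4]
      have hk' : (k : ℤ) + l = 2 * (j + 1) := by exact_mod_cast hkl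
      have hh : (2 * (T : ℤ)) + (2 * (j + 1)) = k ^ 2 + l ^ 2 := by exact_mod_cast h
      have hl' : (l : ℤ) = 2 * (j + 1) - k := by linarith
      have goal' : ((j : ℤ) + 1) * j ≤ T := by
        rw [hl'] at hh
        nlinarith [sq_nonneg ((k : ℤ) - (j + 1))]
      exact_mod_cast goal'
  · have a3 : (2 * j + 1) / 2 = j := by omega
    have a4 : (2 * j + 1 - 1) / 2 = j := by omega
    rw [a3, a4]
    have hk' : (k : ℤ) + l = 2 * j + 1 := by exact_mod_cast hkl
    have hh : (2 * (T : ℤ)) + (2 * j + 1) = k ^ 2 + l ^ 2 := by exact_mod_cast h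
    have hl' : (l : ℤ) = 2 * j + 1 - k := by linarith
    have cons : ∀ t : ℤ, 0 ≤ t * (t - 1) := by
      intro t
      rcases le_or_gt t 0 with h0 | h0
      · nlinarith
      · nlinarith
    have goal' : (j : ℤ) * j ≤ T := by
      rw [hl'] at hh
      nlinarith [cons ((k : ℤ) - j)]
    exact_mod_cast goal'

/-- The pair inequality behind the charging. -/
theorem pair_ineq (a b c d : Bool) (P Q : Prop) [Decidable P] [Decidable Q] :
    (if (if P then !b else a) = (if Q then !d else c) then 1 else 0)
      ≤ (if a ≠ d then 1 else 0) + (if P ∧ a = b then 1 else 0)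
        + (if ¬ Q ∧ c = d then 1 else 0) := by
  by_cases hP : P <;> by_cases hQ : Q <;> cases a <;> cases b <;> cases c <;> cases d <;>
    simp [hP, hQ]

/-- Number of later indices. -/
theorem sum_gt {m : ℕ} (r : Fin m) (C : ℕ) :
    ∑ s : Fin m, (if r < s then C else 0) = C * (m - 1 - r.val) := by
  rw [← Finset.sum_filter]
  simp only [sum_const, smul_eq_mul]
  have : (univ.filter (fun s : Fin m => r < s)) = Finset.Ioi r := by
    ext s; simp
  rw [this, Fin.card_Ioi]
  ring

/-- Number of earlier indices. -/
theorem sum_lt {m : ℕ} (s : Fin m) (C : ℕ) :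
    ∑ r : Fin m, (if r < s then C else 0) = C * s.val := by
  rw [← Finset.sum_filter]
  simp only [sum_const, smul_eq_mul]
  have : (univ.filter (fun r : Fin m => r < s)) = Finset.Iio s := by
    ext r; simp
  rw [this, Fin.card_Iio]
  ring

/-- **Bit lemma.** -/
theorem bit_lemma {m : ℕ} (u v : Fin m → Bool) :
    ∑ r : Fin m, w m r * (if u r ≠ v r then 1 else 0)
      ≤ ∑ r : Fin m, ∑ s : Fin m, if r < s ∧ u r ≠ v s then 1 else 0 := by
  classical
  let up : Fin m → Prop := fun r => m - 1 ≤ 2 * r.val
  let φ : Fin m → Bool := fun r => if up r then !v r else u r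
  -- charging
  have hpair : ∀ r s : Fin m,
      (if r < s ∧ φ r = φ s then 1 else 0)
        ≤ (if r < s ∧ u r ≠ v s then 1 else 0)
          + (if r < s then (if up r ∧ u r = v r then 1 else 0) else 0)
          + (if r < s then (if ¬ up s ∧ u s = v s then 1 else 0) else 0) := by
    intro r s
    by_cases h : r < s
    · have := pair_ineq (u r) (v r) (u s) (v s) (up r) (up s)
      simpa [h, φ] using this
    · simp [h]
  have hsum := Finset.sum_le_sum (fun r (_ : r ∈ (univ : Finset (Fin m))) =>
    Finset.sum_le_sum (fun s (_ : s ∈ (univ : Finset (Fin m))) => hpair r s))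
  simp only [Finset.sum_add_distrib] at hsum
  have hA : ∑ r : Fin m, ∑ s : Fin m,
      (if r < s then (if up r ∧ u r = v r then 1 else 0) else 0)
      = ∑ r : Fin m, (if up r ∧ u r = v r then 1 else 0) * (m - 1 - r.val) := by
    apply Finset.sum_congr rfl
    intro r _
    exact sum_gt r _
  have hB : ∑ r : Fin m, ∑ s : Fin m,
      (if r < s then (if ¬ up s ∧ u s = v s then 1 else 0) else 0)
      = ∑ s : Fin m, (if ¬ up s ∧ u s = v s then 1 else 0) * s.val := by
    rw [Finset.sum_comm]
    apply Finset.sum_congr rfl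
    intro s _
    exact sum_lt s _
  rw [hA, hB] at hsum
  have hmono := mono_ge φ
  have hwsum : ∑ r : Fin m, w m r
      = ∑ r : Fin m, w m r * (if u r ≠ v r then 1 else 0)
        + ∑ r : Fin m, w m r * (if u r = v r then 1 else 0) := by
    rw [← Finset.sum_add_distrib]
    apply Finset.sum_congr rfl
    intro r _
    by_cases e : u r = v r <;> simp [e]
  have hcharge : ∑ r : Fin m, (if up r ∧ u r = v r then 1 else 0) * (m - 1 - r.val)
      + ∑ s : Fin m, (if ¬ up s ∧ u s = v s then 1 else 0) * s.val
      = ∑ r : Fin m, w m r * (if u r = v r then 1 else 0) := by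
    rw [← Finset.sum_add_distrib]
    apply Finset.sum_congr rfl
    intro r _
    have hr := r.isLt
    by_cases hu : up r
    · have : w m r = m - 1 - r.val := by
        have hu' : m - 1 ≤ 2 * r.val := hu
        simp only [w]; omega
      by_cases e : u r = v r <;> simp [hu, e, this]
    · have : w m r = r.val := by
        have hu' : ¬ m - 1 ≤ 2 * r.val := hu
        simp only [w]; omega
      by_cases e : u r = v r <;> simp [hu, e, this]
  have hw := sum_w m
  omega

end Vale.Agent.Lib.P040M
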