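import Vale.Agent.Lib.P040M.Model
import Vale.Agent.Lib.P040T.Circle

/-!
`x`-monotone drawings of `K_{m,n}` in which no red vertex lies between two blue vertices: the blue
vertices form a block in the order along the `x`-axis, with red vertices on both sides of it. The
classical drawing of Zarankiewicz, with the two classes on two perpendicular axes, is of this kind.
-/

namespace Vale.Agent.Lib.P040M

open Finset Vale.Agent.Lib.P040 Vale.Agent.Lib.P040T

/-- An `x`-monotone drawing of `K_{m,n}`. Vertices have distinct `x`-coordinates; the blue ones are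
listed from left to right (which only fixes their names). The edge from red `r` to blue `b` is the
graph of a continuous function `edge r b` over the interval between the `x`-coordinates of `r` and
`b`, and it passes through no vertex other than its two ends. -/
structure MonoDrawing (m n : ℕ) where
  /-- `x`-coordinates of the red vertices -/
  xR : Fin m → ℝ
  /-- `x`-coordinates of the blue vertices -/
  xB : Fin n → ℝ
  /-- `y`-coordinates of the red vertices -/
  yR : Fin m → ℝ
  /-- `y`-coordinates of the blue vertices -/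
  yB : Fin n → ℝ
  xR_inj : Function.Injective xR
  xB_mono : StrictMono xB
  x_ne : ∀ r b, xR r ≠ xB b
  /-- the edges, as functions of the `x`-coordinate -/
  edge : Fin m → Fin n → ℝ → ℝ
  cont : ∀ r b, ContinuousOn (edge r b) (Set.uIcc (xR r) (xB b))
  at_red : ∀ r b, edge r b (xR r) = yR r
  at_blue : ∀ r b, edge r b (xB b) = yB b
  /-- an edge misses the other red vertices over its interval -/
  avoid_red : ∀ r b s, s ≠ r → xR s ∈ Set.uIcc (xR r) (xB b) → edge r b (xR s) ≠ yR s
  /-- an edge misses the other blue vertices over its interval -/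
  avoid_blue : ∀ r b c, c ≠ b → xB c ∈ Set.uIcc (xR r) (xB b) → edge r b (xB c) ≠ yB c

namespace MonoDrawing

variable {m n : ℕ} (D : MonoDrawing m n)

/-- The edges `(r, x)` and `(s, y)` have a common point. -/
def Meet (r : Fin m) (x : Fin n) (s : Fin m) (y : Fin n) : Prop :=
  ∃ t : ℝ, t ∈ Set.uIcc (D.xR r) (D.xB x) ∧ t ∈ Set.uIcc (D.xR s) (D.xB y) ∧
    D.edge r x t = D.edge s y t

open Classical in
/-- The number of unordered pairs of edges without a common end that have a point in common. Each
pair is listed once, by `r < s`. -/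
noncomputable def meetingPairs : ℕ :=
  ((univ : Finset (Fin m × Fin m × Fin n × Fin n)).filter fun q =>
    q.1 < q.2.1 ∧ q.2.2.1 ≠ q.2.2.2 ∧ D.Meet q.1 q.2.2.1 q.2.1 q.2.2.2).card

/-- No red vertex lies between two blue vertices. -/
def BlueBlock : Prop := ∀ r, (∀ b, D.xR r < D.xB b) ∨ (∀ b, D.xB b < D.xR r)

/-- Does the edge `(r, x)` pass above blue `y`? -/
noncomputable def aboveB (r : Fin m) (x y : Fin n) : Bool := by
  classical exact decide (D.yB y < D.edge r x (D.xB y))

/-- Does the edge `(r, x)` pass above red `s`? -/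
noncomputable def aboveR (r : Fin m) (x : Fin n) (s : Fin m) : Bool := by
  classical exact decide (D.yR s < D.edge r x (D.xR s))

theorem aboveB_true (r : Fin m) (x y : Fin n) :
    D.aboveB r x y = true ↔ D.yB y < D.edge r x (D.xB y) := by
  simp [aboveB]

theorem aboveR_true (r : Fin m) (x : Fin n) (s : Fin m) :
    D.aboveR r x s = true ↔ D.yR s < D.edge r x (D.xR s) := by
  simp [aboveR]

/-- Red `r` lies to the left of all blue vertices. -/
def IsLeft (r : Fin m) : Prop := ∀ b, D.xR r < D.xB b

open Classical in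
/-- The tournament of a star, on the blue vertices: for `y < x`, does the edge to `x` pass above `y`
(red on the left), or does the edge to `y` fail to pass above `x` (red on the right). -/
noncomputable def T (t : Fin m) (x y : Fin n) : Bool :=
  if D.IsLeft t then D.aboveB t x y else !D.aboveB t y x

theorem T_left {t : Fin m} (h : D.IsLeft t) (x y : Fin n) : D.T t x y = D.aboveB t x y := by
  simp [T, h]

theorem T_right {t : Fin m} (h : ¬ D.IsLeft t) (x y : Fin n) : D.T t x y = !D.aboveB t y x := by
  simp [T, h]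

/-- Sign change at the two ends of an interval inside both domains gives a meeting. -/
theorem meet_of_sign {r s : Fin m} {x y : Fin n} {p q : ℝ} (hpq : p ≤ q)
    (h1 : Set.Icc p q ⊆ Set.uIcc (D.xR r) (D.xB x))
    (h2 : Set.Icc p q ⊆ Set.uIcc (D.xR s) (D.xB y))
    (hs : (D.edge r x p < D.edge s y p ∧ D.edge s y q < D.edge r x q) ∨
      (D.edge s y p < D.edge r x p ∧ D.edge r x q < D.edge s y q)) :
    D.Meet r x s y := by
  obtain ⟨t, ht, hft⟩ := exists_meeting_of_sign hpq ((D.cont r x).mono h1) ((D.cont s y).mono h2) hs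
  exact ⟨t, h1 ht, h2 ht, hft⟩

/-- Both reds left. -/
theorem meet_left_left {t u : Fin m} (ht : D.IsLeft t) (hu : D.IsLeft u) (htu : D.xR t < D.xR u)
    {x y : Fin n} (hf : forced D.T (fun _ a _ => D.aboveR t a u) t u x y) :
    D.Meet t x u y := by
  have hne : u ≠ t := fun h => lt_irrefl _ (h ▸ htu)
  have hxt := ht x
  have hxu := hu x
  have hyt := ht y
  have hyu := hu y
  have i1 : Set.uIcc (D.xR t) (D.xB x) = Set.Icc (D.xR t) (D.xB x) := Set.uIcc_of_lt hxt
  have i2 : Set.uIcc (D.xR u) (D.xB y) = Set.Icc (D.xR u) (D.xB y) := Set.uIcc_of_lt hyu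
  have hA := D.avoid_red t x u hne (by rw [i1]; exact ⟨htu.le, hxu.le⟩)
  have hAtrue := D.aboveR_true t x u
  have hleft := D.at_red u y
  rcases hf with ⟨hxy, hb⟩ | ⟨hyx, hb⟩
  · have hB : D.xB x < D.xB y := D.xB_mono hxy
    have hAv := D.avoid_blue u y x (ne_of_lt hxy) (by rw [i2]; exact ⟨hxu.le, hB.le⟩)
    have hbtrue := D.aboveB_true u y x
    have hright := D.at_blue t x
    simp only [D.T_left hu] at hb
    refine D.meet_of_sign (p := D.xR u) (q := D.xB x) hxu.le ?_ ?_ ?_
    · rw [i1]; exact Set.Icc_subset_Icc_left htu.le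
    · rw [i2]; exact Set.Icc_subset_Icc_right hB.le
    · rw [hleft, hright]
      cases hc : D.aboveR t x u
      · have hc2 : D.aboveB u y x = false := by rw [← hb, hc]
        have h1 : ¬ D.yR u < D.edge t x (D.xR u) := by rw [← hAtrue, hc]; simp
        have h2 : ¬ D.yB x < D.edge u y (D.xB x) := by rw [← hbtrue, hc2]; simp
        left
        exact ⟨lt_of_le_of_ne (not_lt.mp h1) hA, lt_of_le_of_ne (not_lt.mp h2) hAv⟩
      · have hc2 : D.aboveB u y x = true := by rw [← hb, hc]
        right
        exact ⟨hAtrue.mp hc, hbtrue.mp hc2⟩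
  · have hB : D.xB y < D.xB x := D.xB_mono hyx
    have hAv := D.avoid_blue t x y (ne_of_lt hyx) (by rw [i1]; exact ⟨hyt.le, hB.le⟩)
    have hbtrue := D.aboveB_true t x y
    have hright := D.at_blue u y
    simp only [D.T_left ht] at hb
    refine D.meet_of_sign (p := D.xR u) (q := D.xB y) hyu.le ?_ ?_ ?_
    · rw [i1]; exact Set.Icc_subset_Icc htu.le hB.le
    · rw [i2]
    · rw [hleft, hright]
      cases hc : D.aboveR t x u
      · have hc2 : D.aboveB t x y = true := by
          cases hd : D.aboveB t x y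
          · exact absurd (by rw [hc, hd]) hb
          · rfl
        have h1 : ¬ D.yR u < D.edge t x (D.xR u) := by rw [← hAtrue, hc]; simp
        left
        exact ⟨lt_of_le_of_ne (not_lt.mp h1) hA, hbtrue.mp hc2⟩
      · have hc2 : D.aboveB t x y = false := by
          cases hd : D.aboveB t x y
          · rfl
          · exact absurd (by rw [hc, hd]) hb
        have h2 : ¬ D.yB y < D.edge t x (D.xB y) := by rw [← hbtrue, hc2]; simp
        right
        exact ⟨hAtrue.mp hc, lt_of_le_of_ne (not_lt.mp h2) hAv⟩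

/-- Both reds right; `t` is the farther one. -/
theorem meet_right_right {t u : Fin m} (ht : ∀ b, D.xB b < D.xR t) (hu : ∀ b, D.xB b < D.xR u)
    (htl : ¬ D.IsLeft t) (hul : ¬ D.IsLeft u) (htu : D.xR u < D.xR t)
    {x y : Fin n} (hf : forced D.T (fun _ a _ => D.aboveR t a u) u t x y) :
    D.Meet t x u y := by
  have hne : u ≠ t := fun h => lt_irrefl _ (h ▸ htu)
  have hxt := ht x
  have hxu := hu x
  have hyt := ht y
  have hyu := hu y
  have i1 : Set.uIcc (D.xR t) (D.xB x) = Set.Icc (D.xB x) (D.xR t) := Set.uIcc_of_gt hxt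
  have i2 : Set.uIcc (D.xR u) (D.xB y) = Set.Icc (D.xB y) (D.xR u) := Set.uIcc_of_gt hyu
  have hA := D.avoid_red t x u hne (by rw [i1]; exact ⟨hxu.le, htu.le⟩)
  have hAtrue := D.aboveR_true t x u
  have hqv := D.at_red u y
  rcases hf with ⟨hxy, hb⟩ | ⟨hyx, hb⟩
  · -- `x < y`: interval from `y` to `u`
    have hB : D.xB x < D.xB y := D.xB_mono hxy
    have hAv := D.avoid_blue t x y (ne_of_gt hxy) (by rw [i1]; exact ⟨hB.le, hyt.le⟩)
    have hbtrue := D.aboveB_true t x y
    have hpv := D.at_blue u y
    simp only [D.T_right htl] at hb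
    refine D.meet_of_sign (p := D.xB y) (q := D.xR u) hyu.le ?_ ?_ ?_
    · rw [i1]; exact Set.Icc_subset_Icc hB.le htu.le
    · rw [i2]
    · rw [hqv, hpv]
      cases hc : D.aboveR t x u
      · have hc2 : D.aboveB t x y = true := by
          cases hd : D.aboveB t x y
          · rw [hc, hd] at hb; simp at hb
          · rfl
        have h1 : ¬ D.yR u < D.edge t x (D.xR u) := by rw [← hAtrue, hc]; simp
        right
        exact ⟨hbtrue.mp hc2, lt_of_le_of_ne (not_lt.mp h1) hA⟩
      · have hc2 : D.aboveB t x y = false := by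
          cases hd : D.aboveB t x y
          · rfl
          · rw [hc, hd] at hb; simp at hb
        have h2 : ¬ D.yB y < D.edge t x (D.xB y) := by rw [← hbtrue, hc2]; simp
        left
        exact ⟨lt_of_le_of_ne (not_lt.mp h2) hAv, hAtrue.mp hc⟩
  · -- `y < x`: interval from `x` to `u`
    have hB : D.xB y < D.xB x := D.xB_mono hyx
    have hAv := D.avoid_blue u y x (ne_of_gt hyx) (by rw [i2]; exact ⟨hB.le, hxu.le⟩)
    have hbtrue := D.aboveB_true u y x
    have hpv := D.at_blue t x
    simp only [D.T_right hul] at hb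
    refine D.meet_of_sign (p := D.xB x) (q := D.xR u) hxu.le ?_ ?_ ?_
    · rw [i1]; exact Set.Icc_subset_Icc_right htu.le
    · rw [i2]; exact Set.Icc_subset_Icc_left hB.le
    · rw [hqv, hpv]
      cases hc : D.aboveR t x u
      · have hc2 : D.aboveB u y x = false := by
          cases hd : D.aboveB u y x
          · rfl
          · rw [hc, hd] at hb; simp at hb
        have h1 : ¬ D.yR u < D.edge t x (D.xR u) := by rw [← hAtrue, hc]; simp
        have h2 : ¬ D.yB x < D.edge u y (D.xB x) := by rw [← hbtrue, hc2]; simp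
        right
        exact ⟨lt_of_le_of_ne (not_lt.mp h2) hAv, lt_of_le_of_ne (not_lt.mp h1) hA⟩
      · have hc2 : D.aboveB u y x = true := by
          cases hd : D.aboveB u y x
          · rw [hc, hd] at hb; simp at hb
          · rfl
        left
        exact ⟨hbtrue.mp hc2, hAtrue.mp hc⟩

/-- One red on each side. -/
theorem meet_left_right {t u : Fin m} (ht : D.IsLeft t) (hu : ∀ b, D.xB b < D.xR u)
    (hul : ¬ D.IsLeft u) {x y : Fin n} (hyx : y < x) (hb : D.T t x y ≠ D.T u x y) :
    D.Meet t x u y := by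
  have hxt := ht x
  have hxu := hu x
  have hyt := ht y
  have hyu := hu y
  have i1 : Set.uIcc (D.xR t) (D.xB x) = Set.Icc (D.xR t) (D.xB x) := Set.uIcc_of_lt hxt
  have i2 : Set.uIcc (D.xR u) (D.xB y) = Set.Icc (D.xB y) (D.xR u) := Set.uIcc_of_gt hyu
  have hB : D.xB y < D.xB x := D.xB_mono hyx
  have h1 := D.avoid_blue t x y (ne_of_lt hyx) (by rw [i1]; exact ⟨hyt.le, hB.le⟩)
  have h2 := D.avoid_blue u y x (ne_of_gt hyx) (by rw [i2]; exact ⟨hB.le, hxu.le⟩)
  have b1 := D.aboveB_true t x y
  have b2 := D.aboveB_true u y x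
  have v1 := D.at_blue u y
  have v2 := D.at_blue t x
  rw [D.T_left ht, D.T_right hul] at hb
  refine D.meet_of_sign (p := D.xB y) (q := D.xB x) hB.le ?_ ?_ ?_
  · rw [i1]; exact Set.Icc_subset_Icc_left hyt.le
  · rw [i2]; exact Set.Icc_subset_Icc_right hxu.le
  · rw [v1, v2]
    cases hc : D.aboveB t x y
    · have hc2 : D.aboveB u y x = false := by
        cases hd : D.aboveB u y x
        · rfl
        · rw [hc, hd] at hb; simp at hb
      have n1 : ¬ D.yB y < D.edge t x (D.xB y) := by rw [← b1, hc]; simp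
      have n2 : ¬ D.yB x < D.edge u y (D.xB x) := by rw [← b2, hc2]; simp
      left
      exact ⟨lt_of_le_of_ne (not_lt.mp n1) h1, lt_of_le_of_ne (not_lt.mp n2) h2⟩
    · have hc2 : D.aboveB u y x = true := by
        cases hd : D.aboveB u y x
        · rw [hc, hd] at hb; simp at hb
        · rfl
      right
      exact ⟨b1.mp hc, b2.mp hc2⟩

/-! ### Counting -/

open Classical in
/-- Number of meeting pairs of edges, one at `t` and one at `u`, without a common end. -/
noncomputable def M (t u : Fin m) : ℕ :=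
  ((univ : Finset (Fin n × Fin n)).filter fun p => p.1 ≠ p.2 ∧ D.Meet t p.1 u p.2).card

theorem Meet_symm {r s : Fin m} {x y : Fin n} (h : D.Meet r x s y) : D.Meet s y r x := by
  obtain ⟨t, h1, h2, h3⟩ := h
  exact ⟨t, h2, h1, h3.symm⟩

theorem M_symm (t u : Fin m) : D.M t u = D.M u t := by
  classical
  unfold M
  refine Finset.card_bij (fun p _ => (p.2, p.1)) ?_ ?_ ?_
  · intro p hp
    simp only [mem_filter, mem_univ, true_and] at hp ⊢
    exact ⟨hp.1.symm, D.Meet_symm hp.2⟩
  · rintro ⟨a, b⟩ _ ⟨c, d⟩ _ h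
    simp only [Prod.mk.injEq] at h ⊢
    exact ⟨h.2, h.1⟩
  · rintro ⟨a, b⟩ hp
    refine ⟨(b, a), ?_, rfl⟩
    simp only [mem_filter, mem_univ, true_and] at hp ⊢
    exact ⟨hp.1.symm, D.Meet_symm hp.2⟩

/-- A sum of bounds for the columns is at most `M`. -/
theorem sum_le_M (t u : Fin m) (C : Fin n → Fin n → Prop) [∀ x y, Decidable (C x y)]
    (hC : ∀ x y, C x y → x ≠ y ∧ D.Meet t x u y) (f : Fin n → ℕ)
    (hf : ∀ x, f x ≤ (univ.filter fun y => C x y).card) :
    ∑ x, f x ≤ D.M t u := by
  classical
  unfold M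
  rw [Finset.card_filter, Fintype.sum_prod_type]
  refine Finset.sum_le_sum fun x _ => le_trans (hf x) ?_
  rw [Finset.card_filter]
  refine Finset.sum_le_sum fun y _ => ?_
  by_cases hc : C x y
  · simp [hc, hC x y hc]
  · simp [hc]

theorem forced_ne {ab : Fin m → Fin n → Fin n → Bool} {A : Fin m → Fin n → Fin m → Bool}
    {r s : Fin m} {x y : Fin n} (h : forced ab A r s x y) : x ≠ y := by
  rcases h with ⟨hlt, _⟩ | ⟨hlt, _⟩
  · exact ne_of_lt hlt
  · exact ne_of_gt hlt

/-- Low count of the star `t` at `z`, as a point of the cycle. -/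
noncomputable def low (t : Fin m) (z : Fin n) : ℕ := lowCount (D.T t) z

/-- High count of the star `t` at `z`. -/
noncomputable def high (t : Fin m) (z : Fin n) : ℕ := highCount (D.T t) z

theorem low_add_high_le (t u : Fin m) (z : Fin n) : D.low t z + D.high u z ≤ n - 1 := by
  have h1 := lowCount_add_flip (D.T t) z
  have h2 := highCount_add_flip (D.T u) z
  have hz := z.2
  unfold low high
  omega

open Classical in
/-- First point of a star on the cycle. -/
noncomputable def P (t : Fin m) (z : Fin n) : ℕ :=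
  if D.IsLeft t then D.low t z else n - 1 - D.high t z

open Classical in
/-- Second point of a star on the cycle. -/
noncomputable def Q (t : Fin m) (z : Fin n) : ℕ :=
  if D.IsLeft t then n - 1 - D.high t z else D.low t z

theorem cd_flip (N a b : ℕ) (hab : a + b ≤ N) : cd N a (N - b) = h N (a + b) := by
  unfold cd h
  omega

theorem cd_flip' (N a b : ℕ) (hab : a + b ≤ N) : cd N (N - b) a = h N (a + b) := by
  unfold cd h
  omega

theorem P_le (t : Fin m) (z : Fin n) : D.P t z ≤ n - 1 := by
  unfold P
  have h1 := D.low_add_high_le t t z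
  split_ifs <;> omega

theorem Q_le (t : Fin m) (z : Fin n) : D.Q t z ≤ n - 1 := by
  unfold Q
  have h1 := D.low_add_high_le t t z
  split_ifs <;> omega

theorem diag (t : Fin m) : zar n ≤ ∑ z : Fin n, cd (n - 1) (D.P t z) (D.Q t z) := by
  refine le_trans (zar_le_diagonal (D.T t)) (le_of_eq ?_)
  refine Finset.sum_congr rfl fun z _ => ?_
  have h1 := D.low_add_high_le t t z
  unfold P Q
  by_cases hl : D.IsLeft t
  · simp only [hl, if_true]
    rw [cd_flip _ _ _ h1]
    rfl
  · simp only [hl, if_false]
    rw [cd_flip' _ _ _ h1]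
    rfl

theorem pair_left_left {t u : Fin m} (ht : D.IsLeft t) (hu : D.IsLeft u) (htu : D.xR t < D.xR u) :
    ∑ z : Fin n, cd (n - 1) (D.P t z) (D.Q u z) ≤ D.M t u := by
  classical
  refine D.sum_le_M t u (fun x y => forced D.T (fun _ a _ => D.aboveR t a u) t u x y)
    (fun x y hc => ⟨forced_ne hc, D.meet_left_left ht hu htu hc⟩) _ fun x => ?_
  have h1 := D.low_add_high_le t u x
  have hP : D.P t x = D.low t x := by simp [P, ht]
  have hQ : D.Q u x = n - 1 - D.high u x := by simp [Q, hu]
  rw [hP, hQ, cd_flip _ _ _ h1]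
  exact h_le_card_forced D.T (fun _ a _ => D.aboveR t a u) t u x

theorem pair_right_right {t u : Fin m} (ht : ∀ b, D.xB b < D.xR t) (hu : ∀ b, D.xB b < D.xR u)
    (htl : ¬ D.IsLeft t) (hul : ¬ D.IsLeft u) (htu : D.xR u < D.xR t) :
    ∑ z : Fin n, cd (n - 1) (D.P t z) (D.Q u z) ≤ D.M t u := by
  classical
  refine D.sum_le_M t u (fun x y => forced D.T (fun _ a _ => D.aboveR t a u) u t x y)
    (fun x y hc => ⟨forced_ne hc, D.meet_right_right ht hu htl hul htu hc⟩) _ fun x => ?_
  have h1 := D.low_add_high_le u t x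
  have hP : D.P t x = n - 1 - D.high t x := by simp [P, htl]
  have hQ : D.Q u x = D.low u x := by simp [Q, hul]
  rw [hP, hQ, cd_flip' _ _ _ h1]
  exact h_le_card_forced D.T (fun _ a _ => D.aboveR t a u) u t x

theorem pair_left_right {t u : Fin m} (ht : D.IsLeft t) (hu : ∀ b, D.xB b < D.xR u)
    (hul : ¬ D.IsLeft u) :
    ∑ z : Fin n, cd (n - 1) (D.P t z) (D.Q u z) ≤ D.M t u := by
  classical
  refine D.sum_le_M t u (fun x y => y < x ∧ D.T t x y ≠ D.T u x y)
    (fun x y hc => ⟨ne_of_gt hc.1, D.meet_left_right ht hu hul hc.1 hc.2⟩) _ fun x => ?_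
  have hP : D.P t x = D.low t x := by simp [P, ht]
  have hQ : D.Q u x = D.low u x := by simp [Q, hul]
  rw [hP, hQ]
  have h1 : D.low t x ≤ D.low u x + (univ.filter fun y => y < x ∧ D.T t x y ≠ D.T u x y).card := by
    unfold low lowCount
    refine le_trans (Finset.card_le_card ?_) (Finset.card_union_le _ _)
    intro y hy
    simp only [mem_union, mem_filter, mem_univ, true_and] at hy ⊢
    by_cases hyu : D.T u x y = false
    · exact Or.inl ⟨hy.1, hyu⟩
    · exact Or.inr ⟨hy.1, by rw [hy.2]; exact fun h => hyu h.symm⟩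
  have h2 : D.low u x ≤ D.low t x + (univ.filter fun y => y < x ∧ D.T t x y ≠ D.T u x y).card := by
    unfold low lowCount
    refine le_trans (Finset.card_le_card ?_) (Finset.card_union_le _ _)
    intro y hy
    simp only [mem_union, mem_filter, mem_univ, true_and] at hy ⊢
    by_cases hyt : D.T t x y = false
    · exact Or.inl ⟨hy.1, hyt⟩
    · exact Or.inr ⟨hy.1, by rw [hy.2]; exact hyt⟩
  unfold cd
  omega

/-! ### The order of the stars -/

open Classical in
/-- The sorting key for the reds: left ones first, from left to right, then right ones from right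
to left. -/
noncomputable def key (t : Fin m) : ℝ :=
  if D.IsLeft t then -Real.exp (-D.xR t) else Real.exp (-D.xR t)

theorem key_cases {t u : Fin m} (hlt : D.key t < D.key u) :
    (D.IsLeft t ∧ D.IsLeft u ∧ D.xR t < D.xR u) ∨ (D.IsLeft t ∧ ¬ D.IsLeft u) ∨
      (¬ D.IsLeft t ∧ ¬ D.IsLeft u ∧ D.xR u < D.xR t) := by
  unfold key at hlt
  by_cases ht : D.IsLeft t <;> by_cases hu : D.IsLeft u
  · simp only [ht, hu, if_true] at hlt
    have : Real.exp (-D.xR u) < Real.exp (-D.xR t) := by linarith
    have := Real.exp_lt_exp.mp this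
    exact Or.inl ⟨ht, hu, by linarith⟩
  · exact Or.inr (Or.inl ⟨ht, hu⟩)
  · simp only [ht, hu, if_true, if_false] at hlt
    have h1 := Real.exp_pos (-D.xR t)
    have h2 := Real.exp_pos (-D.xR u)
    linarith
  · simp only [ht, hu, if_false] at hlt
    have := Real.exp_lt_exp.mp hlt
    exact Or.inr (Or.inr ⟨ht, hu, by linarith⟩)

theorem key_inj : Function.Injective D.key := by
  intro t u hk
  unfold key at hk
  by_cases ht : D.IsLeft t <;> by_cases hu : D.IsLeft u
  · simp only [ht, hu, if_true] at hk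
    have := Real.exp_injective (neg_injective hk)
    exact D.xR_inj (neg_injective this)
  · simp only [ht, hu, if_true, if_false] at hk
    have h1 := Real.exp_pos (-D.xR t)
    have h2 := Real.exp_pos (-D.xR u)
    linarith
  · simp only [ht, hu, if_true, if_false] at hk
    have h1 := Real.exp_pos (-D.xR t)
    have h2 := Real.exp_pos (-D.xR u)
    linarith
  · simp only [ht, hu, if_false] at hk
    have := Real.exp_injective hk
    exact D.xR_inj (neg_injective this)

theorem pair_of_key (hD : D.BlueBlock) {t u : Fin m} (hlt : D.key t < D.key u) :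
    ∑ z : Fin n, cd (n - 1) (D.P t z) (D.Q u z) ≤ D.M t u := by
  rcases D.key_cases hlt with ⟨ht, hu, hx⟩ | ⟨ht, hu⟩ | ⟨ht, hu, hx⟩
  · exact D.pair_left_left ht hu hx
  · exact D.pair_left_right ht ((hD u).resolve_left hu) hu
  · exact D.pair_right_right ((hD t).resolve_left ht) ((hD u).resolve_left hu) ht hu hx

theorem sum_M_le : (∑ t : Fin m, ∑ u : Fin m, if t < u then D.M t u else 0) ≤ D.meetingPairs := by
  classical
  unfold meetingPairs
  rw [Finset.card_filter, Fintype.sum_prod_type]
  refine Finset.sum_le_sum fun t _ => ?_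
  rw [Fintype.sum_prod_type]
  refine Finset.sum_le_sum fun u _ => ?_
  by_cases htu : t < u
  · rw [if_pos htu]
    unfold M
    rw [Finset.card_filter]
    refine Finset.sum_le_sum fun p _ => ?_
    by_cases hp : p.1 ≠ p.2 ∧ D.Meet t p.1 u p.2
    · simp [htu, hp]
    · simp [hp]
  · rw [if_neg htu]
    exact Nat.zero_le _

end MonoDrawing

/-- Sum over ordered pairs of a symmetric function does not depend on the order of the index set. -/
theorem two_sum_lt_perm {m : ℕ} (M : Fin m → Fin m → ℕ) (hM : ∀ t u, M t u = M u t)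
    (τ : Equiv.Perm (Fin m)) :
    2 * (∑ i : Fin m, ∑ j : Fin m, if i < j then M (τ i) (τ j) else 0) =
      ∑ t : Fin m, ∑ u : Fin m, if t ≠ u then M t u else 0 := by
  have e1 : (∑ t : Fin m, ∑ u : Fin m, if t ≠ u then M t u else 0) =
      ∑ i : Fin m, ∑ j : Fin m, if τ i ≠ τ j then M (τ i) (τ j) else 0 := by
    rw [← Equiv.sum_comp τ]
    refine Finset.sum_congr rfl fun i _ => ?_
    rw [← Equiv.sum_comp τ]
  have e2 : ∀ i j : Fin m, (if τ i ≠ τ j then M (τ i) (τ j) else 0) =
      (if i < j then M (τ i) (τ j) else 0) + (if j < i then M (τ j) (τ i) else 0) := by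
    intro i j
    rcases lt_trichotomy i j with h | h | h
    · have hne : τ i ≠ τ j := fun e => (ne_of_lt h) (τ.injective e)
      simp [hne, h, not_lt_of_gt h]
    · subst h
      simp
    · have hne : τ i ≠ τ j := fun e => (ne_of_gt h) (τ.injective e)
      simp [hne, h, not_lt_of_gt h, hM (τ i) (τ j)]
  have e3 : (∑ i : Fin m, ∑ j : Fin m, if j < i then M (τ j) (τ i) else 0) =
      ∑ i : Fin m, ∑ j : Fin m, if i < j then M (τ i) (τ j) else 0 := by
    rw [Finset.sum_comm]
  rw [e1]
  simp_rw [e2, Finset.sum_add_distrib]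
  rw [e3]
  ring

theorem sum_lt_perm {m : ℕ} (M : Fin m → Fin m → ℕ) (hM : ∀ t u, M t u = M u t)
    (τ : Equiv.Perm (Fin m)) :
    (∑ i : Fin m, ∑ j : Fin m, if i < j then M (τ i) (τ j) else 0) =
      ∑ t : Fin m, ∑ u : Fin m, if t < u then M t u else 0 := by
  have h1 := two_sum_lt_perm M hM τ
  have h2 := two_sum_lt_perm M hM (Equiv.refl _)
  simp only [Equiv.refl_apply] at h2
  omega

/-- **Zarankiewicz's bound for `x`-monotone drawings in which no red vertex lies between two blue
vertices.** -/
theorem MonoDrawing.zar_le_meetingPairs {m n : ℕ} (D : MonoDrawing m n) (hD : D.BlueBlock) :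
    zar m * zar n ≤ D.meetingPairs := by
  classical
  set σ : Equiv.Perm (Fin m) := Tuple.sort D.key with hσ
  have hcore := core_circle m n (n - 1) (zar n) (fun i z => D.P (σ i) z) (fun i z => D.Q (σ i) z)
    (fun i z => D.P_le (σ i) z) (fun i z => D.Q_le (σ i) z) (fun i => D.diag (σ i))
  refine le_trans hcore (le_trans ?_ D.sum_M_le)
  rw [← sum_lt_perm D.M D.M_symm σ]
  refine Finset.sum_le_sum fun i _ => Finset.sum_le_sum fun j _ => ?_
  by_cases hij : i < j
  · rw [if_pos hij, if_pos hij]
    have hmono := Tuple.monotone_sort D.key hij.le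
    have hne : D.key (σ i) ≠ D.key (σ j) := fun e =>
      (ne_of_lt hij) (σ.injective (D.key_inj e))
    exact D.pair_of_key hD (lt_of_le_of_ne hmono hne)
  · rw [if_neg hij, if_neg hij]

end Vale.Agent.Lib.P040M
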