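import Vale.Agent.Lib.P040.TwoPageCore

/-!
Zarankiewicz bound for sums of cycle distances.

`h N g = min g (N - g)` is the distance on the `N`-cycle. Doubled, it is a cut metric (`cut_lemma`). For a cut metric
`∑_{r<s} D(r,s) ≥ ∑_r w_r D(r,r)` with `w_r = min r (m-1-r)` (`bit_lemma`), and `∑_r w_r = zar m`.
-/

namespace Vale.Agent.Lib.P040M

open Finset Vale.Agent.Lib.P040

/-- Distance from `g` to `0` on the `N`-cycle. -/
def h (N g : ℕ) : ℕ := min g (N - g)

/-- The weight of index `r` among `m`. -/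
def w (m r : ℕ) : ℕ := min r (m - 1 - r)

theorem sum_w_range_succ_succ (m : ℕ) :
    ∑ r ∈ range (m + 2), w (m + 2) r = ∑ r ∈ range m, w m r + m := by
  rw [Finset.sum_range_succ, Finset.sum_range_succ']
  have h1 : w (m + 2) (m + 1) = 0 := by unfold w; omega
  have h2 : w (m + 2) 0 = 0 := by unfold w; omega
  rw [h1, h2]
  simp only [add_zero]
  have : ∀ r ∈ range m, w (m + 2) (r + 1) = w m r + 1 := by
    intro r hr
    have := Finset.mem_range.mp hr
    unfold w
    omega
  rw [Finset.sum_congr rfl this, Finset.sum_add_distrib]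
  simp

theorem sum_w_range (m : ℕ) : ∑ r ∈ range m, w m r = zar m := by
  induction m using Nat.twoStepInduction with
  | zero => simp [zar]
  | one => simp [zar, w]
  | more m ih _ =>
    rw [sum_w_range_succ_succ, ih]
    unfold zar
    rcases Nat.even_or_odd' m with ⟨k, rfl | rfl⟩
    · cases k with
      | zero => simp
      | succ k =>
        have h1 : 2 * (k + 1) / 2 = k + 1 := by omega
        have h2 : (2 * (k + 1) - 1) / 2 = k := by omega
        have h3 : (2 * (k + 1) + 2) / 2 = k + 2 := by omega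
        have h4 : (2 * (k + 1) + 2 - 1) / 2 = k + 1 := by omega
        rw [h1, h2, h3, h4]
        ring
    · have h1 : (2 * k + 1) / 2 = k := by omega
      have h2 : (2 * k + 1 - 1) / 2 = k := by omega
      have h3 : (2 * k + 1 + 2) / 2 = k + 1 := by omega
      have h4 : (2 * k + 1 + 2 - 1) / 2 = k + 1 := by omega
      rw [h1, h2, h3, h4]
      ring

theorem sum_w_fin (m : ℕ) : ∑ r : Fin m, w m r = zar m := by
  rw [← sum_w_range, Fin.sum_univ_eq_sum_range (fun r => w m r) m]

/-- Counting: pairs `r < s` with `s` free. -/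
theorem sum_gt (m : ℕ) (r : Fin m) (c : ℕ) :
    (∑ s : Fin m, if r < s then c else 0) = (m - 1 - r) * c := by
  rw [Finset.sum_ite, Finset.sum_const_zero, Finset.sum_const, add_zero, smul_eq_mul]
  congr 1
  have : (univ.filter fun s : Fin m => r < s) = Ioi r := by
    ext s; simp
  rw [this, Fin.card_Ioi]

/-- Counting: pairs `r < s` with `r` free. -/
theorem sum_lt (m : ℕ) (s : Fin m) (c : ℕ) :
    (∑ r : Fin m, if r < s then c else 0) = (s : ℕ) * c := by
  rw [Finset.sum_ite, Finset.sum_const_zero, Finset.sum_const, add_zero, smul_eq_mul]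
  congr 1
  have : (univ.filter fun r : Fin m => r < s) = Iio s := by
    ext r; simp
  rw [this, Fin.card_Iio]

/-- For any two bit sequences: `∑_r w_r [u r ≠ v r] ≤ ∑_{r<s} [u r ≠ v s]`. -/
theorem bit_lemma (m : ℕ) (u v : Fin m → Bool) :
    ∑ r : Fin m, w m r * (if u r ≠ v r then 1 else 0)
      ≤ ∑ r : Fin m, ∑ s : Fin m, if r < s then (if u r ≠ v s then 1 else 0) else 0 := by
  set φ : Fin m → Bool := fun r => if 2 * (r : ℕ) + 1 < m then u r else !v r with hφ
  set F := ∑ r : Fin m, ∑ s : Fin m, if r < s then (if u r ≠ v s then 1 else 0) else 0 with hF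
  -- the two charges
  set A : Fin m → ℕ := fun r => if u r ≠ φ r then 1 else 0 with hA
  set B : Fin m → ℕ := fun s => if (!v s) ≠ φ s then 1 else 0 with hB
  have hpair : ∀ r s : Fin m, (if φ r = φ s then 1 else 0)
      ≤ (if u r ≠ v s then 1 else 0) + A r + B s := by
    intro r s
    simp only [hA, hB]
    cases h1 : φ r <;> cases h2 : φ s <;> cases h3 : u r <;> cases h4 : v s <;> simp
  have h1 := mono_pairs m φ
  have h2 : (∑ r : Fin m, ∑ s : Fin m, if r < s then (if φ r = φ s then 1 else 0) else 0)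
      ≤ F + ∑ r : Fin m, ((m - 1 - r) * A r + (r : ℕ) * B r) := by
    have e1 : ∑ r : Fin m, ∑ s : Fin m, (if r < s then A r else 0)
        = ∑ r : Fin m, (m - 1 - r) * A r :=
      Finset.sum_congr rfl fun r _ => sum_gt m r (A r)
    have e2 : ∑ r : Fin m, ∑ s : Fin m, (if r < s then B s else 0)
        = ∑ s : Fin m, (s : ℕ) * B s := by
      rw [Finset.sum_comm]
      exact Finset.sum_congr rfl fun s _ => sum_lt m s (B s)
    rw [Finset.sum_add_distrib, ← e1, ← e2, hF, ← Finset.sum_add_distrib, ← Finset.sum_add_distrib]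
    refine Finset.sum_le_sum fun r _ => ?_
    rw [← Finset.sum_add_distrib, ← Finset.sum_add_distrib]
    refine Finset.sum_le_sum fun s _ => ?_
    by_cases hrs : r < s
    · simp only [hrs, if_true]
      have := hpair r s
      omega
    · simp [hrs]
  have h3 : ∀ r : Fin m, (m - 1 - r) * A r + (r : ℕ) * B r + w m r * (if u r ≠ v r then 1 else 0)
      = w m r := by
    intro r
    have hr := r.2
    simp only [hA, hB, hφ]
    by_cases hc : 2 * (r : ℕ) + 1 < m
    · have hw : w m r = r := by unfold w; omega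
      simp only [hc, if_true, hw]
      cases u r <;> cases v r <;> simp
    · have hw : w m r = m - 1 - r := by unfold w; omega
      simp only [hc, if_false, hw]
      cases u r <;> cases v r <;> simp
  have h4 : ∑ r : Fin m, ((m - 1 - r) * A r + (r : ℕ) * B r)
      + ∑ r : Fin m, w m r * (if u r ≠ v r then 1 else 0) = zar m := by
    rw [← sum_w_fin, ← Finset.sum_add_distrib]
    exact Finset.sum_congr rfl fun r _ => h3 r
  omega

/-- Side of the cut `i` of the cycle of length `2 N` on which the point `p` lies. -/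
def bit (N i p : ℕ) : Bool := decide (i < p ∧ p ≤ i + N)

theorem count_mid (N l r : ℕ) (hr : r ≤ N) :
    ∑ i ∈ range N, (if l ≤ i ∧ i < r then 1 else 0) = r - l := by
  rw [← Finset.card_filter]
  have : (range N).filter (fun i => l ≤ i ∧ i < r) = Ico l r := by
    ext i
    simp only [mem_filter, mem_range, mem_Ico]
    omega
  rw [this, Nat.card_Ico]

theorem count_out (N l r : ℕ) (_hlr : l ≤ r) (hr : r ≤ N) :
    ∑ i ∈ range N, (if i < l ∨ r ≤ i then 1 else 0) = N - (r - l) := by
  have h1 := count_mid N l r hr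
  have h2 : ∑ i ∈ range N, ((if l ≤ i ∧ i < r then 1 else 0) + (if i < l ∨ r ≤ i then 1 else 0)) = N := by
    have : ∀ i ∈ range N, ((if l ≤ i ∧ i < r then 1 else 0) + (if i < l ∨ r ≤ i then 1 else 0)) = 1 := by
      intro i _
      by_cases hi : l ≤ i ∧ i < r
      · have : ¬ (i < l ∨ r ≤ i) := by omega
        simp [hi, this]
      · have : (i < l ∨ r ≤ i) := by omega
        simp [hi, this]
    rw [Finset.sum_congr rfl this]
    simp
  rw [Finset.sum_add_distrib, h1] at h2
  omega

/-- The number of cuts separating `x ≤ y` on the cycle of length `2 N` is their distance. -/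
theorem cut_lemma (N x y : ℕ) (hxy : x ≤ y) (hy : y ≤ 2 * N) :
    ∑ i ∈ range N, (if bit N i x ≠ bit N i y then 1 else 0) = min (y - x) (2 * N - (y - x)) := by
  have hiff : ∀ i, (bit N i x ≠ bit N i y) ↔ ¬ ((i < x ∧ x ≤ i + N) ↔ (i < y ∧ y ≤ i + N)) := by
    intro i
    unfold bit
    by_cases h1 : i < x ∧ x ≤ i + N <;> by_cases h2 : i < y ∧ y ≤ i + N <;> simp [h1, h2]
  simp only [hiff]
  by_cases hyN : y ≤ N
  · have : ∀ i ∈ range N, (if ¬ ((i < x ∧ x ≤ i + N) ↔ (i < y ∧ y ≤ i + N)) then 1 else 0)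
        = (if x ≤ i ∧ i < y then 1 else 0) := by
      intro i _
      have : ¬ ((i < x ∧ x ≤ i + N) ↔ (i < y ∧ y ≤ i + N)) ↔ (x ≤ i ∧ i < y) := by omega
      simp only [this]
    rw [Finset.sum_congr rfl this, count_mid N x y hyN]
    omega
  by_cases hxN : N ≤ x
  · have : ∀ i ∈ range N, (if ¬ ((i < x ∧ x ≤ i + N) ↔ (i < y ∧ y ≤ i + N)) then 1 else 0)
        = (if x - N ≤ i ∧ i < y - N then 1 else 0) := by
      intro i hi
      have hi' := Finset.mem_range.mp hi
      have : ¬ ((i < x ∧ x ≤ i + N) ↔ (i < y ∧ y ≤ i + N)) ↔ (x - N ≤ i ∧ i < y - N) := by omega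
      simp only [this]
    rw [Finset.sum_congr rfl this, count_mid N (x - N) (y - N) (by omega)]
    omega
  by_cases hc : x ≤ y - N
  · have : ∀ i ∈ range N, (if ¬ ((i < x ∧ x ≤ i + N) ↔ (i < y ∧ y ≤ i + N)) then 1 else 0)
        = (if i < x ∨ y - N ≤ i then 1 else 0) := by
      intro i hi
      have hi' := Finset.mem_range.mp hi
      have : ¬ ((i < x ∧ x ≤ i + N) ↔ (i < y ∧ y ≤ i + N)) ↔ (i < x ∨ y - N ≤ i) := by omega
      simp only [this]
    rw [Finset.sum_congr rfl this, count_out N x (y - N) hc (by omega)]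
    omega
  · have : ∀ i ∈ range N, (if ¬ ((i < x ∧ x ≤ i + N) ↔ (i < y ∧ y ≤ i + N)) then 1 else 0)
        = (if i < y - N ∨ x ≤ i then 1 else 0) := by
      intro i hi
      have hi' := Finset.mem_range.mp hi
      have : ¬ ((i < x ∧ x ≤ i + N) ↔ (i < y ∧ y ≤ i + N)) ↔ (i < y - N ∨ x ≤ i) := by omega
      simp only [this]
    rw [Finset.sum_congr rfl this, count_out N (y - N) x (by omega) (by omega)]
    omega

/-- `2 h` as a sum over cuts. -/
theorem two_h (N a b : ℕ) (hab : a + b ≤ N) :
    2 * h N (a + b) = ∑ i ∈ range N, (if bit N i (2 * a) ≠ bit N i (2 * N - 2 * b) then 1 else 0) := by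
  rw [cut_lemma N (2 * a) (2 * N - 2 * b) (by omega) (by omega)]
  unfold h
  omega

/-- Per blue vertex: cycle distances. -/
theorem per_z (m N : ℕ) (a b : Fin m → ℕ) (hab : ∀ r s, a r + b s ≤ N) :
    ∑ r : Fin m, w m r * h N (a r + b r)
      ≤ ∑ r : Fin m, ∑ s : Fin m, if r < s then h N (a r + b s) else 0 := by
  have key : 2 * ∑ r : Fin m, w m r * h N (a r + b r)
      ≤ 2 * ∑ r : Fin m, ∑ s : Fin m, if r < s then h N (a r + b s) else 0 := by
    calc 2 * ∑ r : Fin m, w m r * h N (a r + b r)
        = ∑ i ∈ range N, ∑ r : Fin m, w m r *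
            (if bit N i (2 * a r) ≠ bit N i (2 * N - 2 * b r) then 1 else 0) := by
          rw [Finset.sum_comm, Finset.mul_sum]
          refine Finset.sum_congr rfl fun r _ => ?_
          rw [← Finset.mul_sum, ← two_h N (a r) (b r) (hab r r)]
          ring
      _ ≤ ∑ i ∈ range N, ∑ r : Fin m, ∑ s : Fin m,
            if r < s then (if bit N i (2 * a r) ≠ bit N i (2 * N - 2 * b s) then 1 else 0) else 0 :=
          Finset.sum_le_sum fun i _ => bit_lemma m (fun r => bit N i (2 * a r))
            (fun s => bit N i (2 * N - 2 * b s))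
      _ = 2 * ∑ r : Fin m, ∑ s : Fin m, if r < s then h N (a r + b s) else 0 := by
          rw [Finset.sum_comm, Finset.mul_sum]
          refine Finset.sum_congr rfl fun r _ => ?_
          rw [Finset.sum_comm, Finset.mul_sum]
          refine Finset.sum_congr rfl fun s _ => ?_
          by_cases hrs : r < s
          · simp only [hrs, if_true]
            rw [two_h N (a r) (b s) (hab r s)]
          · simp [hrs]
  omega

/-- The whole sum. -/
theorem core (m n N D : ℕ) (a b : Fin m → Fin n → ℕ) (hab : ∀ r s z, a r z + b s z ≤ N)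
    (hd : ∀ r, D ≤ ∑ z : Fin n, h N (a r z + b r z)) :
    zar m * D ≤ ∑ r : Fin m, ∑ s : Fin m, if r < s then ∑ z : Fin n, h N (a r z + b s z) else 0 := by
  calc zar m * D = ∑ r : Fin m, w m r * D := by
        rw [← sum_w_fin, Finset.sum_mul]
    _ ≤ ∑ r : Fin m, w m r * ∑ z : Fin n, h N (a r z + b r z) :=
        Finset.sum_le_sum fun r _ => Nat.mul_le_mul_left _ (hd r)
    _ = ∑ z : Fin n, ∑ r : Fin m, w m r * h N (a r z + b r z) := by
        rw [Finset.sum_comm]
        exact Finset.sum_congr rfl fun r _ => Finset.mul_sum _ _ _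
    _ ≤ ∑ z : Fin n, ∑ r : Fin m, ∑ s : Fin m, if r < s then h N (a r z + b s z) else 0 :=
        Finset.sum_le_sum fun z _ => per_z m N (fun r => a r z) (fun s => b s z) fun r s => hab r s z
    _ = ∑ r : Fin m, ∑ s : Fin m, if r < s then ∑ z : Fin n, h N (a r z + b s z) else 0 := by
        rw [Finset.sum_comm]
        refine Finset.sum_congr rfl fun r _ => ?_
        rw [Finset.sum_comm]
        refine Finset.sum_congr rfl fun s _ => ?_
        by_cases hrs : r < s
        · simp [hrs]
        · simp [hrs]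

end Vale.Agent.Lib.P040M
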