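import Vale.Agent.Lib.P040M.Core

/-!
`x`-monotone drawings of `K_{m,n}` with all red vertices left of all blue vertices.

An edge is the graph of a continuous function over the interval between the `x`-coordinates of its
ends. At each vertex inside its interval an edge passes strictly above or below that vertex; these
bits decide (intermediate value theorem) when two vertex-disjoint edges must meet. The count of
forced meetings is bounded below with `Vale.Agent.Lib.P040M.core`.
-/

namespace Vale.Agent.Lib.P040M

open Finset Vale.Agent.Lib.P040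

/-! ### The score of a tournament given by bits -/

/-- Number of `y < z` with bit `T z y` false. -/
def lowCount {n : ℕ} (T : Fin n → Fin n → Bool) (z : Fin n) : ℕ :=
  (univ.filter fun y : Fin n => y < z ∧ T z y = false).card

/-- Number of `x > z` with bit `T x z` true. -/
def highCount {n : ℕ} (T : Fin n → Fin n → Bool) (z : Fin n) : ℕ :=
  (univ.filter fun x : Fin n => z < x ∧ T x z = true).card

/-- The bits with values flipped. -/
def flipBits {n : ℕ} (T : Fin n → Fin n → Bool) : Fin n → Fin n → Bool := fun x y => !T x y

theorem lowCount_add_flip {n : ℕ} (T : Fin n → Fin n → Bool) (z : Fin n) :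
    lowCount T z + lowCount (flipBits T) z = z := by
  unfold lowCount flipBits
  have h1 : (univ.filter fun y : Fin n => y < z) = Iio z := by ext y; simp
  have h2 : (Iio z).card = (z : ℕ) := Fin.card_Iio z
  rw [← h2, ← h1, ← Finset.card_union_of_disjoint]
  · congr 1
    ext y
    simp only [mem_union, mem_filter, mem_univ, true_and, Bool.not_eq_false']
    cases T z y <;> simp
  · rw [Finset.disjoint_left]
    intro y hy hy'
    simp only [mem_filter, mem_univ, true_and, Bool.not_eq_false'] at hy hy'
    simp [hy.2] at hy'

theorem highCount_add_flip {n : ℕ} (T : Fin n → Fin n → Bool) (z : Fin n) :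
    highCount T z + highCount (flipBits T) z = n - 1 - z := by
  unfold highCount flipBits
  have h1 : (univ.filter fun y : Fin n => z < y) = Ioi z := by ext y; simp
  have h2 : (Ioi z).card = n - 1 - (z : ℕ) := Fin.card_Ioi z
  rw [← h2, ← h1, ← Finset.card_union_of_disjoint]
  · congr 1
    ext y
    simp only [mem_union, mem_filter, mem_univ, true_and, Bool.not_eq_true']
    cases T y z <;> simp
  · rw [Finset.disjoint_left]
    intro y hy hy'
    simp only [mem_filter, mem_univ, true_and, Bool.not_eq_true'] at hy hy'
    simp [hy.2] at hy'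

/-- The score inside a set. -/
def scoreIn {n : ℕ} (T : Fin n → Fin n → Bool) (S : Finset (Fin n)) (z : Fin n) : ℕ :=
  (S.filter fun y : Fin n => y < z ∧ T z y = false).card +
    (S.filter fun x : Fin n => z < x ∧ T x z = true).card

theorem scoreIn_le {n : ℕ} (T : Fin n → Fin n → Bool) (S : Finset (Fin n)) (z : Fin n) :
    scoreIn T S z ≤ lowCount T z + highCount T z := by
  unfold scoreIn lowCount highCount
  exact Nat.add_le_add (Finset.card_le_card (Finset.filter_subset_filter _ (subset_univ S)))
    (Finset.card_le_card (Finset.filter_subset_filter _ (subset_univ S)))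

/-- Inside a set `S`, the scores add up to at least the number of pairs of `S`. -/
theorem choose_le_sum_scoreIn {n : ℕ} (T : Fin n → Fin n → Bool) (S : Finset (Fin n)) :
    S.card.choose 2 ≤ ∑ z ∈ S, scoreIn T S z := by
  induction S using Finset.induction_on_max with
  | empty => simp
  | insert M S hM ih =>
    have hnot : M ∉ S := fun h => lt_irrefl _ (hM M h)
    rw [Finset.card_insert_of_notMem hnot, Finset.sum_insert hnot]
    -- the new vertex
    have h1 : (S.filter fun y : Fin n => T M y = false).card ≤ scoreIn T (insert M S) M := by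
      unfold scoreIn
      refine le_trans (Finset.card_le_card ?_) (Nat.le_add_right _ _)
      intro y hy
      simp only [mem_filter, mem_insert] at hy ⊢
      exact ⟨Or.inr hy.1, hM y hy.1, hy.2⟩
    -- the old vertices
    have h2 : ∀ z ∈ S, scoreIn T S z + (if T M z = true then 1 else 0) ≤ scoreIn T (insert M S) z := by
      intro z hz
      have hzM : z < M := hM z hz
      unfold scoreIn
      have e1 : (S.filter fun y : Fin n => y < z ∧ T z y = false).card
          ≤ ((insert M S).filter fun y : Fin n => y < z ∧ T z y = false).card :=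
        Finset.card_le_card (Finset.filter_subset_filter _ (subset_insert _ _))
      have e2 : (S.filter fun x : Fin n => z < x ∧ T x z = true).card +
            (if T M z = true then 1 else 0)
          ≤ ((insert M S).filter fun x : Fin n => z < x ∧ T x z = true).card := by
        by_cases hT : T M z = true
        · rw [if_pos hT, Finset.filter_insert, if_pos ⟨hzM, hT⟩,
            Finset.card_insert_of_notMem (fun h => hnot (Finset.mem_filter.mp h).1)]
        · rw [if_neg hT, add_zero]
          exact Finset.card_le_card (Finset.filter_subset_filter _ (subset_insert _ _))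
      omega
    have h3 : ∑ z ∈ S, scoreIn T S z + ∑ z ∈ S, (if T M z = true then 1 else 0)
        ≤ ∑ z ∈ S, scoreIn T (insert M S) z := by
      rw [← Finset.sum_add_distrib]
      exact Finset.sum_le_sum h2
    have h4 : (S.filter fun y : Fin n => T M y = false).card +
        ∑ z ∈ S, (if T M z = true then 1 else 0) = S.card := by
      rw [← Finset.card_filter, add_comm, ← Finset.card_union_of_disjoint]
      · congr 1
        ext y
        simp only [mem_union, mem_filter]
        cases T M y <;> simp
      · rw [Finset.disjoint_left]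
        intro y hy hy'
        simp only [mem_filter] at hy hy'
        simp [hy.2] at hy'
    have h5 : (S.card + 1).choose 2 = S.card + S.card.choose 2 := by
      rw [Nat.choose_succ_succ' S.card 1, Nat.choose_one_right]
    rw [h5]
    omega

theorem two_choose_add (l : ℕ) : 2 * l.choose 2 + l = l * l := by
  induction l with
  | zero => simp
  | succ k ih =>
    have h5 : (k + 1).choose 2 = k + k.choose 2 := by
      rw [Nat.choose_succ_succ' k 1, Nat.choose_one_right]
    rw [h5]
    nlinarith

theorem zar_le_choose_add (n l k : ℕ) (h : l + k = n) : zar n ≤ l.choose 2 + k.choose 2 := by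
  have hl := two_choose_add l
  have hk := two_choose_add k
  unfold zar
  rcases Nat.even_or_odd' n with ⟨c, rfl | rfl⟩
  · have h1 : 2 * c / 2 = c := by omega
    have h2 : (2 * c - 1) / 2 = c - 1 := by omega
    rw [h1, h2]
    cases c with
    | zero => simp
    | succ c =>
      simp only [Nat.add_sub_cancel]
      have : (l : ℤ) + k = 2 * (c + 1) := by exact_mod_cast h
      have hl' : (2 * (l.choose 2 : ℤ)) + l = l * l := by exact_mod_cast hl
      have hk' : (2 * (k.choose 2 : ℤ)) + k = k * k := by exact_mod_cast hk
      have goal' : ((c + 1 : ℤ)) * c ≤ (l.choose 2 : ℤ) + k.choose 2 := by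
        nlinarith [sq_nonneg ((l : ℤ) - k)]
      exact_mod_cast goal'
  · have h1 : (2 * c + 1) / 2 = c := by omega
    have h2 : (2 * c + 1 - 1) / 2 = c := by omega
    rw [h1, h2]
    have hh : (l : ℤ) + k = 2 * c + 1 := by exact_mod_cast h
    have hl' : (2 * (l.choose 2 : ℤ)) + l = l * l := by exact_mod_cast hl
    have hk' : (2 * (k.choose 2 : ℤ)) + k = k * k := by exact_mod_cast hk
    have hne : ((l : ℤ) - k) ^ 2 ≥ 1 := by
      have : (l : ℤ) - k ≠ 0 := by omega
      have := Int.one_le_abs this
      nlinarith [abs_mul_abs_self ((l : ℤ) - k), sq_abs ((l : ℤ) - k)]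
    have goal' : (c : ℤ) * c ≤ (l.choose 2 : ℤ) + k.choose 2 := by
      nlinarith
    exact_mod_cast goal'

/-- Every star's own cost is at least `zar n`. -/
theorem zar_le_diagonal {n : ℕ} (T : Fin n → Fin n → Bool) :
    zar n ≤ ∑ z : Fin n, h (n - 1) (lowCount T z + highCount T z) := by
  classical
  set s : Fin n → ℕ := fun z => lowCount T z + highCount T z with hs
  set F : Finset (Fin n) := univ.filter fun z => 2 * s z ≤ n - 1 with hF
  set G : Finset (Fin n) := univ.filter fun z => ¬ 2 * s z ≤ n - 1 with hG
  have hcard : F.card + G.card = n := by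
    have := Finset.card_filter_add_card_filter_not (s := (univ : Finset (Fin n)))
      (fun z => 2 * s z ≤ n - 1)
    simpa [hF, hG] using this
  have hsplit : ∑ z : Fin n, h (n - 1) (s z) =
      ∑ z ∈ F, h (n - 1) (s z) + ∑ z ∈ G, h (n - 1) (s z) := by
    rw [hF, hG, Finset.sum_filter_add_sum_filter_not]
  have hflip : ∀ z : Fin n, s z + (lowCount (flipBits T) z + highCount (flipBits T) z) = n - 1 := by
    intro z
    have h1 := lowCount_add_flip T z
    have h2 := highCount_add_flip T z
    have hz := z.2
    simp only [hs]
    omega
  have hFle : F.card.choose 2 ≤ ∑ z ∈ F, h (n - 1) (s z) := by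
    refine le_trans (choose_le_sum_scoreIn T F) (Finset.sum_le_sum fun z hz => ?_)
    have hz' : 2 * s z ≤ n - 1 := (Finset.mem_filter.mp hz).2
    have := scoreIn_le T F z
    unfold h
    simp only [hs] at hz' ⊢
    omega
  have hGle : G.card.choose 2 ≤ ∑ z ∈ G, h (n - 1) (s z) := by
    refine le_trans (choose_le_sum_scoreIn (flipBits T) G) (Finset.sum_le_sum fun z hz => ?_)
    have hz' : ¬ 2 * s z ≤ n - 1 := (Finset.mem_filter.mp hz).2
    have h1 := scoreIn_le (flipBits T) G z
    have h2 := hflip z
    unfold h
    simp only [hs] at hz' h2 ⊢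
    omega
  have := zar_le_choose_add n F.card G.card hcard
  show zar n ≤ ∑ z : Fin n, h (n - 1) (s z)
  rw [hsplit]
  omega

/-! ### The bits -/

/-- The condition for an odd number of meetings of the edges `(r, x)`, `(s, y)`, for `r < s`, in
terms of the bits. -/
def forced {m n : ℕ} (ab : Fin m → Fin n → Fin n → Bool) (A : Fin m → Fin n → Fin m → Bool)
    (r s : Fin m) (x y : Fin n) : Prop :=
  (x < y ∧ A r x s = ab s y x) ∨ (y < x ∧ A r x s ≠ ab r x y)

instance {m n : ℕ} (ab : Fin m → Fin n → Fin n → Bool) (A : Fin m → Fin n → Fin m → Bool)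
    (r s : Fin m) (x y : Fin n) : Decidable (forced ab A r s x y) := by
  unfold forced; infer_instance

theorem h_le_card_forced {m n : ℕ} (ab : Fin m → Fin n → Fin n → Bool)
    (A : Fin m → Fin n → Fin m → Bool) (r s : Fin m) (x : Fin n) :
    h (n - 1) (lowCount (ab r) x + highCount (ab s) x) ≤
      (univ.filter fun y : Fin n => forced ab A r s x y).card := by
  by_cases hA : A r x s = true
  · have : lowCount (ab r) x + highCount (ab s) x
        ≤ (univ.filter fun y : Fin n => forced ab A r s x y).card := by
      unfold lowCount highCount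
      rw [add_comm, ← Finset.card_union_of_disjoint]
      · refine Finset.card_le_card ?_
        intro y hy
        simp only [mem_union, mem_filter, mem_univ, true_and, forced, hA] at hy ⊢
        rcases hy with hy | hy
        · exact Or.inl ⟨hy.1, hy.2.symm⟩
        · exact Or.inr ⟨hy.1, by simp [hy.2]⟩
      · rw [Finset.disjoint_left]
        intro y hy hy'
        simp only [mem_filter, mem_univ, true_and] at hy hy'
        exact lt_asymm hy.1 hy'.1
    exact le_trans (min_le_left _ _) this
  · have hA' : A r x s = false := by simpa using hA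
    have h1 := lowCount_add_flip (ab r) x
    have h2 := highCount_add_flip (ab s) x
    have hx := x.2
    have : lowCount (flipBits (ab r)) x + highCount (flipBits (ab s)) x
        ≤ (univ.filter fun y : Fin n => forced ab A r s x y).card := by
      unfold lowCount highCount flipBits
      rw [add_comm, ← Finset.card_union_of_disjoint]
      · refine Finset.card_le_card ?_
        intro y hy
        simp only [mem_union, mem_filter, mem_univ, true_and, forced, hA',
          Bool.not_eq_true', Bool.not_eq_false'] at hy ⊢
        rcases hy with hy | hy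
        · exact Or.inl ⟨hy.1, hy.2.symm⟩
        · exact Or.inr ⟨hy.1, by simp [hy.2]⟩
      · rw [Finset.disjoint_left]
        intro y hy hy'
        simp only [mem_filter, mem_univ, true_and] at hy hy'
        exact lt_asymm hy.1 hy'.1
    unfold h
    refine le_trans (min_le_right _ _) ?_
    omega

/-- The bound for the forced pairs, for arbitrary bits. -/
theorem zar_le_forced {m n : ℕ} (ab : Fin m → Fin n → Fin n → Bool)
    (A : Fin m → Fin n → Fin m → Bool) :
    zar m * zar n ≤ ((univ : Finset (Fin m × Fin m × Fin n × Fin n)).filter fun q =>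
      q.1 < q.2.1 ∧ forced ab A q.1 q.2.1 q.2.2.1 q.2.2.2).card := by
  have hcore := core m n (n - 1) (zar n) (fun r z => lowCount (ab r) z)
    (fun s z => highCount (ab s) z) ?_ (fun r => zar_le_diagonal (ab r))
  · refine le_trans hcore ?_
    rw [Finset.card_filter, Fintype.sum_prod_type]
    refine Finset.sum_le_sum fun r _ => ?_
    rw [Fintype.sum_prod_type]
    refine Finset.sum_le_sum fun s _ => ?_
    rw [Fintype.sum_prod_type]
    by_cases hrs : r < s
    · rw [if_pos hrs]
      refine Finset.sum_le_sum fun x _ => ?_
      refine le_trans (h_le_card_forced ab A r s x) ?_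
      rw [Finset.card_filter]
      refine Finset.sum_le_sum fun y _ => ?_
      simp [hrs]
    · rw [if_neg hrs]
      exact Nat.zero_le _
  · intro r s z
    have h1 := lowCount_add_flip (ab r) z
    have h2 := highCount_add_flip (ab s) z
    have hz := z.2
    omega

/-! ### Drawings -/

/-- An `x`-monotone drawing of `K_{m,n}` with all `m` red vertices to the left of all `n` blue
vertices. Vertices have distinct `x`-coordinates and are listed from left to right in each class
(which only fixes their names). The edge from red `r` to blue `x` is the graph of the continuous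
function `edge r x` over the interval from the `x`-coordinate of `r` to that of `x`. No edge passes
through a vertex other than its ends. Nothing else is required of the curves. -/
structure MonoSepDrawing (m n : ℕ) where
  /-- `x`-coordinates of the red vertices -/
  xR : Fin m → ℝ
  /-- `x`-coordinates of the blue vertices -/
  xB : Fin n → ℝ
  /-- `y`-coordinates of the red vertices -/
  yR : Fin m → ℝ
  /-- `y`-coordinates of the blue vertices -/
  yB : Fin n → ℝ
  xR_mono : StrictMono xR
  xB_mono : StrictMono xB
  /-- all reds lie to the left of all blues -/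
  sep : ∀ r x, xR r < xB x
  /-- the edges, as functions of the `x`-coordinate -/
  edge : Fin m → Fin n → ℝ → ℝ
  cont : ∀ r x, ContinuousOn (edge r x) (Set.Icc (xR r) (xB x))
  left : ∀ r x, edge r x (xR r) = yR r
  right : ∀ r x, edge r x (xB x) = yB x
  /-- an edge misses the red vertices over its interval, other than its end -/
  avoidR : ∀ r x s, r < s → edge r x (xR s) ≠ yR s
  /-- an edge misses the blue vertices over its interval, other than its end -/
  avoidB : ∀ r x y, y < x → edge r x (xB y) ≠ yB y

open Classical in
/-- The number of unordered pairs of edges without a common end that have a point in common. Each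
pair is listed once, by `r < s`. -/
noncomputable def MonoSepDrawing.meetingPairs {m n : ℕ} (D : MonoSepDrawing m n) : ℕ :=
  ((univ : Finset (Fin m × Fin m × Fin n × Fin n)).filter fun q =>
    q.1 < q.2.1 ∧ q.2.2.1 ≠ q.2.2.2 ∧
      ∃ t : ℝ, t ∈ Set.Icc (D.xR q.1) (D.xB q.2.2.1) ∧ t ∈ Set.Icc (D.xR q.2.1) (D.xB q.2.2.2) ∧
        D.edge q.1 q.2.2.1 t = D.edge q.2.1 q.2.2.2 t).card

/-- Intermediate value theorem for the difference of two functions with opposite signs. -/
theorem exists_meeting_of_sign {f g : ℝ → ℝ} {u v : ℝ} (huv : u ≤ v)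
    (hf : ContinuousOn f (Set.Icc u v)) (hg : ContinuousOn g (Set.Icc u v))
    (hs : (f u < g u ∧ g v < f v) ∨ (g u < f u ∧ f v < g v)) :
    ∃ t ∈ Set.Icc u v, f t = g t := by
  have hc : ContinuousOn (fun t => f t - g t) (Set.Icc u v) := hf.sub hg
  rcases hs with ⟨h1, h2⟩ | ⟨h1, h2⟩
  · have := intermediate_value_Icc huv hc
    have hmem : (0 : ℝ) ∈ Set.Icc (f u - g u) (f v - g v) :=
      ⟨by linarith, by linarith⟩
    obtain ⟨t, ht, hft⟩ := this hmem
    exact ⟨t, ht, by simp only at hft; linarith⟩
  · have := intermediate_value_Icc' huv hc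
    have hmem : (0 : ℝ) ∈ Set.Icc (f v - g v) (f u - g u) :=
      ⟨by linarith, by linarith⟩
    obtain ⟨t, ht, hft⟩ := this hmem
    exact ⟨t, ht, by simp only at hft; linarith⟩

/-- The bits of a drawing: does edge `(r, x)` pass above blue `y`? -/
noncomputable def MonoSepDrawing.abBit {m n : ℕ} (D : MonoSepDrawing m n) :
    Fin m → Fin n → Fin n → Bool := fun r x y => by
  classical exact decide (D.yB y < D.edge r x (D.xB y))

/-- The bits of a drawing: does edge `(r, x)` pass above red `s`? -/
noncomputable def MonoSepDrawing.aBit {m n : ℕ} (D : MonoSepDrawing m n) :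
    Fin m → Fin n → Fin m → Bool := fun r x s => by
  classical exact decide (D.yR s < D.edge r x (D.xR s))

theorem MonoSepDrawing.abBit_eq_true {m n : ℕ} (D : MonoSepDrawing m n) (r : Fin m) (x y : Fin n) :
    D.abBit r x y = true ↔ D.yB y < D.edge r x (D.xB y) := by
  simp [MonoSepDrawing.abBit]

theorem MonoSepDrawing.aBit_eq_true {m n : ℕ} (D : MonoSepDrawing m n) (r : Fin m) (x : Fin n)
    (s : Fin m) :
    D.aBit r x s = true ↔ D.yR s < D.edge r x (D.xR s) := by
  simp [MonoSepDrawing.aBit]

/-- Forced bits give a common point. -/
theorem MonoSepDrawing.meets_of_forced {m n : ℕ} (D : MonoSepDrawing m n) {r s : Fin m}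
    (hrs : r < s) {x y : Fin n} (hf : forced D.abBit D.aBit r s x y) :
    ∃ t : ℝ, t ∈ Set.Icc (D.xR r) (D.xB x) ∧ t ∈ Set.Icc (D.xR s) (D.xB y) ∧
      D.edge r x t = D.edge s y t := by
  have hR : D.xR r < D.xR s := D.xR_mono hrs
  -- the sign at the left end of the common interval
  have hleft : D.edge s y (D.xR s) = D.yR s := D.left s y
  have hA := D.avoidR r x s hrs
  have hAtrue := D.aBit_eq_true r x s
  rcases hf with ⟨hxy, hb⟩ | ⟨hyx, hb⟩
  · have hB : D.xB x < D.xB y := D.xB_mono hxy
    have hle : D.xR s ≤ D.xB x := (D.sep s x).le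
    have hsub1 : Set.Icc (D.xR s) (D.xB x) ⊆ Set.Icc (D.xR r) (D.xB x) :=
      Set.Icc_subset_Icc_left hR.le
    have hsub2 : Set.Icc (D.xR s) (D.xB x) ⊆ Set.Icc (D.xR s) (D.xB y) :=
      Set.Icc_subset_Icc_right hB.le
    have hright : D.edge r x (D.xB x) = D.yB x := D.right r x
    have hAv := D.avoidB s y x hxy
    have hbtrue := D.abBit_eq_true s y x
    obtain ⟨t, ht, hft⟩ := exists_meeting_of_sign (f := D.edge r x) (g := D.edge s y) hle
      ((D.cont r x).mono hsub1) ((D.cont s y).mono hsub2) (by
        rw [hleft, hright]
        cases hc : D.aBit r x s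
        · have hc2 : D.abBit s y x = false := by rw [← hb, hc]
          have h1 : ¬ D.yR s < D.edge r x (D.xR s) := by rw [← hAtrue, hc]; simp
          have h2 : ¬ D.yB x < D.edge s y (D.xB x) := by rw [← hbtrue, hc2]; simp
          left
          exact ⟨lt_of_le_of_ne (not_lt.mp h1) hA, lt_of_le_of_ne (not_lt.mp h2) hAv⟩
        · have hc2 : D.abBit s y x = true := by rw [← hb, hc]
          right
          exact ⟨hAtrue.mp hc, hbtrue.mp hc2⟩)
    exact ⟨t, hsub1 ht, hsub2 ht, hft⟩
  · have hB : D.xB y < D.xB x := D.xB_mono hyx
    have hle : D.xR s ≤ D.xB y := (D.sep s y).le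
    have hsub1 : Set.Icc (D.xR s) (D.xB y) ⊆ Set.Icc (D.xR r) (D.xB x) :=
      Set.Icc_subset_Icc hR.le hB.le
    have hright : D.edge s y (D.xB y) = D.yB y := D.right s y
    have hAv := D.avoidB r x y hyx
    have hbtrue := D.abBit_eq_true r x y
    obtain ⟨t, ht, hft⟩ := exists_meeting_of_sign (f := D.edge r x) (g := D.edge s y) hle
      ((D.cont r x).mono hsub1) (D.cont s y) (by
        rw [hleft, hright]
        cases hc : D.aBit r x s
        · have hc2 : D.abBit r x y = true := by
            cases hd : D.abBit r x y
            · exact absurd (by rw [hc, hd]) hb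
            · rfl
          have h1 : ¬ D.yR s < D.edge r x (D.xR s) := by rw [← hAtrue, hc]; simp
          left
          exact ⟨lt_of_le_of_ne (not_lt.mp h1) hA, hbtrue.mp hc2⟩
        · have hc2 : D.abBit r x y = false := by
            cases hd : D.abBit r x y
            · rfl
            · exact absurd (by rw [hc, hd]) hb
          have h2 : ¬ D.yB y < D.edge r x (D.xB y) := by rw [← hbtrue, hc2]; simp
          right
          exact ⟨hAtrue.mp hc, lt_of_le_of_ne (not_lt.mp h2) hAv⟩)
    exact ⟨t, hsub1 ht, ht, hft⟩

/-- **Zarankiewicz's bound for `x`-monotone drawings with the classes separated.** -/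
theorem MonoSepDrawing.zar_le_meetingPairs {m n : ℕ} (D : MonoSepDrawing m n) :
    zar m * zar n ≤ D.meetingPairs := by
  classical
  refine le_trans (zar_le_forced D.abBit D.aBit) ?_
  unfold MonoSepDrawing.meetingPairs
  refine Finset.card_le_card ?_
  intro q hq
  simp only [mem_filter, mem_univ, true_and] at hq ⊢
  refine ⟨hq.1, ?_, D.meets_of_forced hq.1 hq.2⟩
  rcases hq.2 with ⟨hlt, _⟩ | ⟨hlt, _⟩
  · exact ne_of_lt hlt
  · exact ne_of_gt hlt

end Vale.Agent.Lib.P040M
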