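import Vale.Agent.Lib.P040M.Model

/-!
`x`-monotone drawings of `K_{m,n}` whose blue vertices are consecutive in the `x`-order: a vertical
strip contains all blue vertices and no red vertex; red vertices may lie on both sides of it. The
Zarankiewicz drawing, slightly rotated, is of this form.

The reds are listed: left of the strip from left to right, then right of the strip from right to
left. For one blue vertex a red star gives two points of a cycle; the bit inequality is applied to
them in this order.
-/

namespace Vale.Agent.Lib.P040M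

open Finset Vale.Agent.Lib.P040

/-- The number of cuts separating two points of the cycle of length `2 N`. -/
def cutDist (N x y : ℕ) : ℕ := ∑ i ∈ range N, if bit N i x ≠ bit N i y then 1 else 0

theorem cutDist_comm (N x y : ℕ) : cutDist N x y = cutDist N y x := by
  unfold cutDist
  refine Finset.sum_congr rfl fun i _ => ?_
  by_cases h : bit N i x = bit N i y
  · simp [h]
  · have h' : ¬ bit N i y = bit N i x := fun e => h e.symm
    simp [h, h']

theorem cutDist_le_sub (N x y : ℕ) (hxy : x ≤ y) (hy : y ≤ 2 * N) : cutDist N x y ≤ y - x := by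
  unfold cutDist
  rw [cut_lemma N x y hxy hy]
  exact min_le_left _ _

theorem cutDist_two_h (N a b : ℕ) (hab : a + b ≤ N) :
    cutDist N (2 * a) (2 * N - 2 * b) = 2 * h N (a + b) :=
  (two_h N a b hab).symm

theorem per_cut (m N : ℕ) (u v : Fin m → ℕ) :
    ∑ r : Fin m, w m r * cutDist N (u r) (v r)
      ≤ ∑ r : Fin m, ∑ s : Fin m, if r < s then cutDist N (u r) (v s) else 0 := by
  calc ∑ r : Fin m, w m r * cutDist N (u r) (v r)
      = ∑ i ∈ range N, ∑ r : Fin m, w m r * (if bit N i (u r) ≠ bit N i (v r) then 1 else 0) := by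
        rw [Finset.sum_comm]
        refine Finset.sum_congr rfl fun r _ => ?_
        rw [← Finset.mul_sum]
        rfl
    _ ≤ ∑ i ∈ range N, ∑ r : Fin m, ∑ s : Fin m,
          if r < s then (if bit N i (u r) ≠ bit N i (v s) then 1 else 0) else 0 :=
        Finset.sum_le_sum fun i _ => bit_lemma m (fun r => bit N i (u r)) (fun s => bit N i (v s))
    _ = ∑ r : Fin m, ∑ s : Fin m, if r < s then cutDist N (u r) (v s) else 0 := by
        rw [Finset.sum_comm]
        refine Finset.sum_congr rfl fun r _ => ?_
        rw [Finset.sum_comm]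
        refine Finset.sum_congr rfl fun s _ => ?_
        by_cases hrs : r < s
        · simp [hrs, cutDist]
        · simp [hrs]

/-- The mirror image of star bits. -/
def mir {n : ℕ} (T : Fin n → Fin n → Bool) : Fin n → Fin n → Bool :=
  fun x y => T (Fin.rev x) (Fin.rev y)

theorem low_le {n : ℕ} (T : Fin n → Fin n → Bool) (z : Fin n) : lowCount T z ≤ z := by
  have := lowCount_add_flip T z
  omega

theorem high_le {n : ℕ} (T : Fin n → Fin n → Bool) (z : Fin n) : highCount T z ≤ n - 1 - z := by
  have := highCount_add_flip T z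
  omega

theorem rev_val {n : ℕ} (z : Fin n) : ((Fin.rev z : Fin n) : ℕ) = n - 1 - z := by
  have := Fin.val_rev z
  have hz := z.2
  omega

/-- Forced pairs of edges from a left star or a right star. -/
def forcedS {m n : ℕ} (T : Fin m → Fin n → Fin n → Bool) (A : Fin m → Fin n → Fin m → Bool)
    (L : Fin m → Bool) (r s : Fin m) (x y : Fin n) : Prop :=
  if L r = true then
    if L s = true then forced T A r s x y else y < x ∧ T r x y = T s y x
  else (y < x ∧ A r x s = T s y x) ∨ (x < y ∧ A r x s ≠ T r x y)

/-- First point of a star over blue `z`. -/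
def ptU {n : ℕ} (T : Fin n → Fin n → Bool) (b : Bool) (z : Fin n) : ℕ :=
  if b = true then 2 * lowCount T z else 2 * (n - 1) - 2 * lowCount (mir T) (Fin.rev z)

/-- Second point of a star over blue `z`. -/
def ptV {n : ℕ} (T : Fin n → Fin n → Bool) (b : Bool) (z : Fin n) : ℕ :=
  if b = true then 2 * (n - 1) - 2 * highCount T z else 2 * highCount (mir T) (Fin.rev z)

theorem diag_star {n : ℕ} (T : Fin n → Fin n → Bool) (b : Bool) :
    2 * zar n ≤ ∑ z : Fin n, cutDist (n - 1) (ptU T b z) (ptV T b z) := by
  cases b with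
  | true =>
    have e : ∀ z : Fin n, cutDist (n - 1) (ptU T true z) (ptV T true z)
        = 2 * h (n - 1) (lowCount T z + highCount T z) := by
      intro z
      simp only [ptU, ptV, if_true]
      refine cutDist_two_h _ _ _ ?_
      have h1 := low_le T z
      have h2 := high_le T z
      have hz := z.2
      omega
    rw [Finset.sum_congr rfl fun z _ => e z, ← Finset.mul_sum]
    exact Nat.mul_le_mul_left _ (zar_le_diagonal T)
  | false =>
    have e : ∀ z : Fin n, cutDist (n - 1) (ptU T false z) (ptV T false z)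
        = 2 * h (n - 1) (lowCount (mir T) (Fin.rev z) + highCount (mir T) (Fin.rev z)) := by
      intro z
      simp only [ptU, ptV, Bool.false_eq_true, if_false]
      rw [cutDist_comm, add_comm (lowCount (mir T) (Fin.rev z))]
      refine cutDist_two_h _ _ _ ?_
      have h1 := low_le (mir T) (Fin.rev z)
      have h2 := high_le (mir T) (Fin.rev z)
      have hz := (Fin.rev z).2
      omega
    rw [Finset.sum_congr rfl fun z _ => e z, ← Finset.mul_sum]
    refine Nat.mul_le_mul_left _ ?_
    have hc := Equiv.sum_comp (Fin.revPerm : Equiv.Perm (Fin n))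
      (fun z => h (n - 1) (lowCount (mir T) z + highCount (mir T) z))
    simp only [Fin.revPerm_apply] at hc
    rw [hc]
    exact zar_le_diagonal (mir T)

/-- Rewriting the count of a right star. -/
theorem high_mir_eq {n : ℕ} (T : Fin n → Fin n → Bool) (z : Fin n) :
    highCount (mir T) (Fin.rev z) = (univ.filter fun x : Fin n => x < z ∧ T x z = true).card := by
  unfold highCount mir
  refine Finset.card_bij (fun x _ => Fin.rev x) ?_ ?_ ?_
  · intro x hx
    simp only [mem_filter, mem_univ, true_and, Fin.rev_rev] at hx ⊢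
    refine ⟨?_, hx.2⟩
    have := hx.1
    rw [Fin.lt_def] at this ⊢
    have h1 := rev_val z
    have h2 := rev_val x
    have hx' := x.2
    have hz' := z.2
    omega
  · intro a _ b _ hab
    exact Fin.rev_injective hab
  · intro x hx
    refine ⟨Fin.rev x, ?_, Fin.rev_rev x⟩
    simp only [mem_filter, mem_univ, true_and, Fin.rev_rev] at hx ⊢
    refine ⟨?_, hx.2⟩
    have := hx.1
    rw [Fin.lt_def] at this ⊢
    have h1 := rev_val z
    have h2 := rev_val x
    have hx' := x.2
    have hz' := z.2
    omega

theorem pair_le {m n : ℕ} (T : Fin m → Fin n → Fin n → Bool) (A : Fin m → Fin n → Fin m → Bool)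
    (L : Fin m → Bool) (hL : ∀ r s, r < s → L s = true → L r = true) (r s : Fin m) (hrs : r < s)
    (z : Fin n) [DecidablePred fun y : Fin n => forcedS T A L r s z y] :
    cutDist (n - 1) (ptU (T r) (L r) z) (ptV (T s) (L s) z)
      ≤ 2 * (univ.filter fun y : Fin n => forcedS T A L r s z y).card := by
  by_cases hr : L r = true
  · by_cases hs : L s = true
    · -- both left
      simp only [ptU, ptV, hr, hs, if_true]
      rw [cutDist_two_h]
      · refine Nat.mul_le_mul_left _ (le_trans (h_le_card_forced T A r s z) ?_)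
        refine Finset.card_le_card fun y hy => ?_
        simp only [mem_filter, mem_univ, true_and] at hy ⊢
        simpa [forcedS, hr, hs] using hy
      · have h1 := low_le (T r) z
        have h2 := high_le (T s) z
        have hz := z.2
        omega
    · -- left and right
      have hU : ptU (T r) (L r) z = 2 * lowCount (T r) z := by simp [ptU, hr]
      have hV : ptV (T s) (L s) z = 2 * highCount (mir (T s)) (Fin.rev z) := by simp [ptV, hs]
      rw [hU, hV, high_mir_eq]
      set a := lowCount (T r) z with ha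
      set q := (univ.filter fun x : Fin n => x < z ∧ T s x z = true).card with hq
      set d := (univ.filter fun y : Fin n => forcedS T A L r s z y).card with hd
      have hmem : ∀ y, y ∈ (univ.filter fun y : Fin n => forcedS T A L r s z y) ↔
          (y < z ∧ T r z y = T s y z) := by
        intro y
        simp [forcedS, hr, hs]
      have h1 : a ≤ q + d := by
        rw [ha, hq, hd]
        unfold lowCount
        refine le_trans (Finset.card_le_card ?_) (Finset.card_union_le _ _)
        intro y hy
        simp only [mem_filter, mem_univ, true_and] at hy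
        rw [mem_union, hmem]
        cases hc : T s y z
        · right
          exact ⟨hy.1, hy.2⟩
        · left
          simp only [mem_filter, mem_univ, true_and]
          exact ⟨hy.1, hc⟩
      have h2 : q ≤ a + d := by
        rw [ha, hq, hd]
        unfold lowCount
        refine le_trans (Finset.card_le_card ?_) (Finset.card_union_le _ _)
        intro y hy
        simp only [mem_filter, mem_univ, true_and] at hy
        rw [mem_union, hmem]
        cases hc : T r z y
        · left
          simp only [mem_filter, mem_univ, true_and]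
          exact ⟨hy.1, hc⟩
        · right
          exact ⟨hy.1, hy.2.symm⟩
      have ha2 : a ≤ n - 1 := by
        have := low_le (T r) z
        have hz := z.2
        omega
      have hq2 : q ≤ n - 1 := by
        have e := high_mir_eq (T s) z
        have h3 := high_le (mir (T s)) (Fin.rev z)
        have hz := (Fin.rev z).2
        have hv := rev_val z
        have hz' := z.2
        omega
      by_cases hle : a ≤ q
      · have := cutDist_le_sub (n - 1) (2 * a) (2 * q) (by omega) (by omega)
        omega
      · rw [cutDist_comm]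
        have := cutDist_le_sub (n - 1) (2 * q) (2 * a) (by omega) (by omega)
        omega
  · -- both right
    have hs : ¬ L s = true := fun e => hr (hL r s hrs e)
    have hU : ptU (T r) (L r) z = 2 * (n - 1) - 2 * lowCount (mir (T r)) (Fin.rev z) := by
      simp [ptU, hr]
    have hV : ptV (T s) (L s) z = 2 * highCount (mir (T s)) (Fin.rev z) := by simp [ptV, hs]
    have hP := low_le (mir (T r)) (Fin.rev z)
    have hQ := high_le (mir (T s)) (Fin.rev z)
    have hz := (Fin.rev z).2
    rw [hU, hV, cutDist_comm, cutDist_two_h _ _ _ (by omega),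
      add_comm (highCount (mir (T s)) (Fin.rev z))]
    refine Nat.mul_le_mul_left _ ?_
    have key := h_le_card_forced (fun r => mir (T r)) (fun r x s => A r (Fin.rev x) s) r s
      (Fin.rev z)
    refine le_trans key ?_
    refine Finset.card_le_card_of_injOn (fun y => Fin.rev y) ?_ ?_
    · intro y hy
      have hy' := (Finset.mem_filter.mp (Finset.mem_coe.mp hy)).2
      refine Finset.mem_coe.mpr (Finset.mem_filter.mpr ⟨mem_univ _, ?_⟩)
      have hnot : ¬ L r = true := hr
      simp only [forcedS, if_neg hnot]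
      simp only [forced, mir, Fin.rev_rev] at hy'
      have hvz := rev_val z
      have hvy := rev_val y
      have hz' := z.2
      have hy2 := y.2
      rcases hy' with ⟨h1, h2⟩ | ⟨h1, h2⟩
      · left
        refine ⟨?_, h2⟩
        rw [Fin.lt_def] at h1 ⊢
        omega
      · right
        refine ⟨?_, h2⟩
        rw [Fin.lt_def] at h1 ⊢
        omega
    · intro a _ b _ hab
      exact Fin.rev_injective hab

open Classical in
/-- The bound for the forced pairs, for arbitrary bits. -/
theorem zar_le_forcedS {m n : ℕ} (T : Fin m → Fin n → Fin n → Bool)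
    (A : Fin m → Fin n → Fin m → Bool) (L : Fin m → Bool)
    (hL : ∀ r s, r < s → L s = true → L r = true) :
    zar m * zar n ≤ ((univ : Finset (Fin m × Fin m × Fin n × Fin n)).filter fun q =>
      q.1 < q.2.1 ∧ forcedS T A L q.1 q.2.1 q.2.2.1 q.2.2.2).card := by
  have step1 : 2 * (zar m * zar n) ≤ ∑ z : Fin n, ∑ r : Fin m, ∑ s : Fin m,
      if r < s then cutDist (n - 1) (ptU (T r) (L r) z) (ptV (T s) (L s) z) else 0 := by
    calc 2 * (zar m * zar n) = ∑ r : Fin m, w m r * (2 * zar n) := by
          rw [← Finset.sum_mul, sum_w_fin]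
          ring
      _ ≤ ∑ r : Fin m, w m r * ∑ z : Fin n,
            cutDist (n - 1) (ptU (T r) (L r) z) (ptV (T r) (L r) z) :=
          Finset.sum_le_sum fun r _ => Nat.mul_le_mul_left _ (diag_star (T r) (L r))
      _ = ∑ z : Fin n, ∑ r : Fin m, w m r *
            cutDist (n - 1) (ptU (T r) (L r) z) (ptV (T r) (L r) z) := by
          rw [Finset.sum_comm]
          exact Finset.sum_congr rfl fun r _ => Finset.mul_sum _ _ _
      _ ≤ _ := Finset.sum_le_sum fun z _ => per_cut m (n - 1)
            (fun r => ptU (T r) (L r) z) (fun s => ptV (T s) (L s) z)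
  have step2 : (∑ z : Fin n, ∑ r : Fin m, ∑ s : Fin m,
      if r < s then cutDist (n - 1) (ptU (T r) (L r) z) (ptV (T s) (L s) z) else 0)
      ≤ 2 * ((univ : Finset (Fin m × Fin m × Fin n × Fin n)).filter fun q =>
      q.1 < q.2.1 ∧ forcedS T A L q.1 q.2.1 q.2.2.1 q.2.2.2).card := by
    rw [Finset.card_filter, Fintype.sum_prod_type, Finset.sum_comm, Finset.mul_sum]
    refine Finset.sum_le_sum fun r _ => ?_
    rw [Fintype.sum_prod_type, Finset.sum_comm, Finset.mul_sum]
    refine Finset.sum_le_sum fun s _ => ?_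
    rw [Fintype.sum_prod_type, Finset.mul_sum]
    refine Finset.sum_le_sum fun z _ => ?_
    by_cases hrs : r < s
    · rw [if_pos hrs]
      refine le_trans (pair_le T A L hL r s hrs z) (Nat.mul_le_mul_left _ ?_)
      rw [Finset.card_filter]
      refine Finset.sum_le_sum fun y _ => ?_
      simp [hrs]
    · rw [if_neg hrs]
      exact Nat.zero_le _
  omega

/-! ### Drawings -/

/-- An `x`-monotone drawing of `K_{m,n}` in which the `n` blue vertices are consecutive in the
`x`-order: they lie in an open vertical strip `cL < x < cR`, and every red vertex lies to the left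
or to the right of the strip. Vertices have distinct `x`-coordinates. Names: the blue vertices are
listed from left to right; the red vertices are listed with those left of the strip first, from
left to right, then those right of the strip, from right to left. The edge from red `r` to blue `x`
is the graph of the continuous function `edge r x` over the closed interval between their
`x`-coordinates. No edge passes through a vertex other than its ends. Nothing else is required of
the curves. -/
structure MonoStripDrawing (m n : ℕ) where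
  /-- `x`-coordinates of the red vertices -/
  xR : Fin m → ℝ
  /-- `x`-coordinates of the blue vertices -/
  xB : Fin n → ℝ
  /-- `y`-coordinates of the red vertices -/
  yR : Fin m → ℝ
  /-- `y`-coordinates of the blue vertices -/
  yB : Fin n → ℝ
  /-- left side of the strip -/
  cL : ℝ
  /-- right side of the strip -/
  cR : ℝ
  xB_mono : StrictMono xB
  /-- all blue vertices lie in the strip -/
  strip : ∀ x, cL < xB x ∧ xB x < cR
  /-- no red vertex lies in the closed strip -/
  outside : ∀ r, xR r < cL ∨ cR < xR r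
  /-- the way the red vertices are listed -/
  names : ∀ r s, r < s → (xR r < xR s ∧ xR s < cL) ∨ (cR < xR s ∧ xR s < xR r) ∨
    (xR r < cL ∧ cR < xR s)
  /-- the edges, as functions of the `x`-coordinate -/
  edge : Fin m → Fin n → ℝ → ℝ
  cont : ∀ r x, ContinuousOn (edge r x) (Set.uIcc (xR r) (xB x))
  atRed : ∀ r x, edge r x (xR r) = yR r
  atBlue : ∀ r x, edge r x (xB x) = yB x
  /-- an edge misses the other red vertices over its interval -/
  avoidR : ∀ r x s, s ≠ r → xR s ∈ Set.uIcc (xR r) (xB x) → edge r x (xR s) ≠ yR s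
  /-- an edge misses the other blue vertices over its interval -/
  avoidB : ∀ r x y, y ≠ x → xB y ∈ Set.uIcc (xR r) (xB x) → edge r x (xB y) ≠ yB y

open Classical in
/-- The number of unordered pairs of edges without a common end that have a point in common. Each
pair is listed once, by `r < s`. -/
noncomputable def MonoStripDrawing.meetingPairs {m n : ℕ} (D : MonoStripDrawing m n) : ℕ :=
  ((univ : Finset (Fin m × Fin m × Fin n × Fin n)).filter fun q =>
    q.1 < q.2.1 ∧ q.2.2.1 ≠ q.2.2.2 ∧
      ∃ t : ℝ, t ∈ Set.uIcc (D.xR q.1) (D.xB q.2.2.1) ∧ t ∈ Set.uIcc (D.xR q.2.1) (D.xB q.2.2.2) ∧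
        D.edge q.1 q.2.2.1 t = D.edge q.2.1 q.2.2.2 t).card

/-- Signs from three strict comparisons. -/
theorem sign_of {fu gu fv gv : ℝ} (h1 : fu ≠ gu) (h2 : fv ≠ gv) (h : gu < fu ↔ ¬ gv < fv) :
    (fu < gu ∧ gv < fv) ∨ (gu < fu ∧ fv < gv) := by
  rcases lt_or_gt_of_ne h1 with a | a
  · left
    refine ⟨a, ?_⟩
    by_contra hc
    exact absurd (h.mpr hc) (not_lt.mpr a.le)
  · right
    refine ⟨a, ?_⟩
    exact lt_of_le_of_ne (not_lt.mp (h.mp a)) h2

/-- A sign change on a common interval gives a common point. -/
theorem meet_on {f g : ℝ → ℝ} {u v : ℝ} {Sf Sg : Set ℝ} (huv : u ≤ v)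
    (h1 : Set.Icc u v ⊆ Sf) (h2 : Set.Icc u v ⊆ Sg) (hf : ContinuousOn f Sf)
    (hg : ContinuousOn g Sg) (hs : (f u < g u ∧ g v < f v) ∨ (g u < f u ∧ f v < g v)) :
    ∃ t, t ∈ Sf ∧ t ∈ Sg ∧ f t = g t := by
  obtain ⟨t, ht, hft⟩ := exists_meeting_of_sign huv (hf.mono h1) (hg.mono h2) hs
  exact ⟨t, h1 ht, h2 ht, hft⟩

/-- Bits of a drawing: does edge `(r, x)` pass above blue `y`? -/
noncomputable def MonoStripDrawing.tBit {m n : ℕ} (D : MonoStripDrawing m n) :
    Fin m → Fin n → Fin n → Bool := fun r x y => by
  classical exact decide (D.yB y < D.edge r x (D.xB y))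

/-- Bits of a drawing: does edge `(r, x)` pass above red `s`? -/
noncomputable def MonoStripDrawing.aBit {m n : ℕ} (D : MonoStripDrawing m n) :
    Fin m → Fin n → Fin m → Bool := fun r x s => by
  classical exact decide (D.yR s < D.edge r x (D.xR s))

/-- Bits of a drawing: is red `r` left of the strip? -/
noncomputable def MonoStripDrawing.lBit {m n : ℕ} (D : MonoStripDrawing m n) :
    Fin m → Bool := fun r => by
  classical exact decide (D.xR r < D.cL)

theorem MonoStripDrawing.tBit_iff {m n : ℕ} (D : MonoStripDrawing m n) (r : Fin m) (x y : Fin n) :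
    D.tBit r x y = true ↔ D.yB y < D.edge r x (D.xB y) := by
  simp [MonoStripDrawing.tBit]

theorem MonoStripDrawing.aBit_iff {m n : ℕ} (D : MonoStripDrawing m n) (r : Fin m) (x : Fin n)
    (s : Fin m) : D.aBit r x s = true ↔ D.yR s < D.edge r x (D.xR s) := by
  simp [MonoStripDrawing.aBit]

theorem MonoStripDrawing.lBit_iff {m n : ℕ} (D : MonoStripDrawing m n) (r : Fin m) :
    D.lBit r = true ↔ D.xR r < D.cL := by
  simp [MonoStripDrawing.lBit]

theorem MonoStripDrawing.cL_lt_cR {m n : ℕ} (D : MonoStripDrawing m n) (x : Fin n) :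
    D.cL < D.cR := lt_trans (D.strip x).1 (D.strip x).2

/-- Equal bits give equivalent comparisons. -/
theorem iff_not_of_eq {P Q : Prop} {a b : Bool} (hP : a = true ↔ P) (hQ : b = true ↔ Q)
    (hab : a = b) : P ↔ Q := by
  rw [← hP, ← hQ, hab]

theorem iff_of_ne {P Q : Prop} {a b : Bool} (hP : a = true ↔ P) (hQ : b = true ↔ Q)
    (hab : a ≠ b) : P ↔ ¬ Q := by
  rw [← hP, ← hQ]
  cases a <;> cases b <;> simp_all

theorem not_lt_iff_lt_of_ne {p q : ℝ} (h : p ≠ q) : ¬ p < q ↔ q < p :=
  ⟨fun h' => lt_of_le_of_ne (not_lt.mp h') h.symm, fun h' => not_lt.mpr h'.le⟩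

/-- Forced bits give a common point. -/
theorem MonoStripDrawing.meets_of_forced {m n : ℕ} (D : MonoStripDrawing m n) {r s : Fin m}
    (hrs : r < s) {x y : Fin n} (hf : forcedS D.tBit D.aBit D.lBit r s x y) :
    ∃ t : ℝ, t ∈ Set.uIcc (D.xR r) (D.xB x) ∧ t ∈ Set.uIcc (D.xR s) (D.xB y) ∧
      D.edge r x t = D.edge s y t := by
  have hsr : s ≠ r := ne_of_gt hrs
  have hbl : ∀ b, D.cL < D.xB b := fun b => (D.strip b).1
  have hbr : ∀ b, D.xB b < D.cR := fun b => (D.strip b).2
  have hcc : D.cL < D.cR := D.cL_lt_cR x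
  rcases D.names r s hrs with ⟨h1, h2⟩ | ⟨h1, h2⟩ | ⟨h1, h2⟩
  · -- both left
    have hLr : D.lBit r = true := (D.lBit_iff r).mpr (lt_trans h1 h2)
    have hLs : D.lBit s = true := (D.lBit_iff s).mpr h2
    simp only [forcedS, hLr, hLs, if_true] at hf
    have hIr : ∀ b, Set.uIcc (D.xR r) (D.xB b) = Set.Icc (D.xR r) (D.xB b) := fun b =>
      Set.uIcc_of_le (le_of_lt (lt_trans (lt_trans h1 h2) (hbl b)))
    have hIs : ∀ b, Set.uIcc (D.xR s) (D.xB b) = Set.Icc (D.xR s) (D.xB b) := fun b =>
      Set.uIcc_of_le (le_of_lt (lt_trans h2 (hbl b)))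
    have hAv : D.edge r x (D.xR s) ≠ D.yR s := D.avoidR r x s hsr (by
      rw [hIr]; exact ⟨h1.le, (lt_trans h2 (hbl x)).le⟩)
    rcases hf with ⟨hxy, hb⟩ | ⟨hyx, hb⟩
    · have hB : D.xB x < D.xB y := D.xB_mono hxy
      have hAv2 : D.edge s y (D.xB x) ≠ D.yB x := D.avoidB s y x (ne_of_lt hxy) (by
        rw [hIs]; exact ⟨(lt_trans h2 (hbl x)).le, hB.le⟩)
      refine meet_on (f := D.edge r x) (g := D.edge s y) (u := D.xR s) (v := D.xB x)
        (lt_trans h2 (hbl x)).le ?_ ?_ (D.cont r x) (D.cont s y) ?_
      · rw [hIr]; exact Set.Icc_subset_Icc_left h1.le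
      · rw [hIs]; exact Set.Icc_subset_Icc_right hB.le
      · rw [D.atRed s y, D.atBlue r x]
        refine sign_of hAv hAv2.symm ?_
        rw [not_lt_iff_lt_of_ne hAv2]
        exact iff_not_of_eq (D.aBit_iff r x s) (D.tBit_iff s y x) hb
    · have hB : D.xB y < D.xB x := D.xB_mono hyx
      have hAv2 : D.edge r x (D.xB y) ≠ D.yB y := D.avoidB r x y (ne_of_lt hyx) (by
        rw [hIr]; exact ⟨(lt_trans (lt_trans h1 h2) (hbl y)).le, hB.le⟩)
      refine meet_on (f := D.edge r x) (g := D.edge s y) (u := D.xR s) (v := D.xB y)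
        (lt_trans h2 (hbl y)).le ?_ ?_ (D.cont r x) (D.cont s y) ?_
      · rw [hIr]; exact Set.Icc_subset_Icc h1.le hB.le
      · rw [hIs]
      · rw [D.atRed s y, D.atBlue s y]
        refine sign_of hAv hAv2 ?_
        exact iff_of_ne (D.aBit_iff r x s) (D.tBit_iff r x y) hb
  · -- both right, `s` between the strip and `r`
    have hr : D.cR < D.xR r := lt_trans h1 h2
    have hLr : D.lBit r = false := by
      cases hc : D.lBit r
      · rfl
      · have := (D.lBit_iff r).mp hc
        linarith
    simp only [forcedS, hLr, Bool.false_eq_true, if_false] at hf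
    have hIr : ∀ b, Set.uIcc (D.xR r) (D.xB b) = Set.Icc (D.xB b) (D.xR r) := fun b =>
      Set.uIcc_of_ge (le_of_lt (lt_trans (hbr b) hr))
    have hIs : ∀ b, Set.uIcc (D.xR s) (D.xB b) = Set.Icc (D.xB b) (D.xR s) := fun b =>
      Set.uIcc_of_ge (le_of_lt (lt_trans (hbr b) h1))
    have hAv : D.edge r x (D.xR s) ≠ D.yR s := D.avoidR r x s hsr (by
      rw [hIr]; exact ⟨(lt_trans (hbr x) h1).le, h2.le⟩)
    rcases hf with ⟨hyx, hb⟩ | ⟨hxy, hb⟩
    · -- the common interval starts at blue `x`
      have hB : D.xB y < D.xB x := D.xB_mono hyx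
      have hAv2 : D.edge s y (D.xB x) ≠ D.yB x := D.avoidB s y x (ne_of_gt hyx) (by
        rw [hIs]; exact ⟨hB.le, (lt_trans (hbr x) h1).le⟩)
      refine meet_on (f := D.edge r x) (g := D.edge s y) (u := D.xB x) (v := D.xR s)
        (lt_trans (hbr x) h1).le ?_ ?_ (D.cont r x) (D.cont s y) ?_
      · rw [hIr]; exact Set.Icc_subset_Icc_right h2.le
      · rw [hIs]; exact Set.Icc_subset_Icc_left hB.le
      · rw [D.atRed s y, D.atBlue r x]
        refine sign_of hAv2.symm hAv ?_
        rw [iff_not_of_eq (D.aBit_iff r x s) (D.tBit_iff s y x) hb]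
        exact (not_lt_iff_lt_of_ne hAv2.symm).symm
    · -- the common interval starts at blue `y`
      have hB : D.xB x < D.xB y := D.xB_mono hxy
      have hAv2 : D.edge r x (D.xB y) ≠ D.yB y := D.avoidB r x y (ne_of_gt hxy) (by
        rw [hIr]; exact ⟨hB.le, (lt_trans (hbr y) hr).le⟩)
      refine meet_on (f := D.edge r x) (g := D.edge s y) (u := D.xB y) (v := D.xR s)
        (lt_trans (hbr y) h1).le ?_ ?_ (D.cont r x) (D.cont s y) ?_
      · rw [hIr]; exact Set.Icc_subset_Icc hB.le h2.le
      · rw [hIs]
      · rw [D.atRed s y, D.atBlue s y]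
        refine sign_of hAv2 hAv ?_
        exact iff_of_ne (D.tBit_iff r x y) (D.aBit_iff r x s) hb.symm
  · -- left and right
    have hLr : D.lBit r = true := (D.lBit_iff r).mpr h1
    have hLs : D.lBit s = false := by
      cases hc : D.lBit s
      · rfl
      · have := (D.lBit_iff s).mp hc
        linarith
    simp only [forcedS, hLr, hLs, if_true, Bool.false_eq_true, if_false] at hf
    obtain ⟨hyx, hb⟩ := hf
    have hIr : ∀ b, Set.uIcc (D.xR r) (D.xB b) = Set.Icc (D.xR r) (D.xB b) := fun b =>
      Set.uIcc_of_le (le_of_lt (lt_trans h1 (hbl b)))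
    have hIs : ∀ b, Set.uIcc (D.xR s) (D.xB b) = Set.Icc (D.xB b) (D.xR s) := fun b =>
      Set.uIcc_of_ge (le_of_lt (lt_trans (hbr b) h2))
    have hB : D.xB y < D.xB x := D.xB_mono hyx
    have hAv : D.edge r x (D.xB y) ≠ D.yB y := D.avoidB r x y (ne_of_lt hyx) (by
      rw [hIr]; exact ⟨(lt_trans h1 (hbl y)).le, hB.le⟩)
    have hAv2 : D.edge s y (D.xB x) ≠ D.yB x := D.avoidB s y x (ne_of_gt hyx) (by
      rw [hIs]; exact ⟨hB.le, (lt_trans (hbr x) h2).le⟩)
    refine meet_on (f := D.edge r x) (g := D.edge s y) (u := D.xB y) (v := D.xB x)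
      hB.le ?_ ?_ (D.cont r x) (D.cont s y) ?_
    · rw [hIr]; exact Set.Icc_subset_Icc_left (lt_trans h1 (hbl y)).le
    · rw [hIs]; exact Set.Icc_subset_Icc_right (lt_trans (hbr x) h2).le
    · rw [D.atBlue s y, D.atBlue r x]
      refine sign_of hAv hAv2.symm ?_
      rw [not_lt_iff_lt_of_ne hAv2]
      exact iff_not_of_eq (D.tBit_iff r x y) (D.tBit_iff s y x) hb

/-- **Zarankiewicz's bound for `x`-monotone drawings with one class consecutive.** -/
theorem MonoStripDrawing.zar_le_meetingPairs {m n : ℕ} (D : MonoStripDrawing m n) :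
    zar m * zar n ≤ D.meetingPairs := by
  classical
  rcases Nat.eq_zero_or_pos n with hn | hn
  · subst hn
    simp [zar]
  have hL : ∀ r s, r < s → D.lBit s = true → D.lBit r = true := by
    intro r s hrs hs
    have hs' := (D.lBit_iff s).mp hs
    rw [D.lBit_iff]
    rcases D.names r s hrs with ⟨h1, h2⟩ | ⟨h1, h2⟩ | ⟨h1, h2⟩
    · exact lt_trans h1 h2
    · exfalso
      have := D.cL_lt_cR ⟨0, hn⟩
      linarith
    · exact h1
  refine le_trans (zar_le_forcedS D.tBit D.aBit D.lBit hL) ?_
  unfold MonoStripDrawing.meetingPairs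
  refine Finset.card_le_card ?_
  intro q hq
  simp only [mem_filter, mem_univ, true_and] at hq ⊢
  refine ⟨hq.1, ?_, D.meets_of_forced hq.1 hq.2⟩
  have h2 := hq.2
  intro hxy
  rw [hxy] at h2
  unfold forcedS at h2
  split_ifs at h2 with h3 h4
  · rcases h2 with ⟨hlt, _⟩ | ⟨hlt, _⟩ <;> exact lt_irrefl _ hlt
  · exact lt_irrefl _ h2.1
  · rcases h2 with ⟨hlt, _⟩ | ⟨hlt, _⟩ <;> exact lt_irrefl _ hlt

end Vale.Agent.Lib.P040M
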