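import Vale.Agent.Lib.P040M.BothSides
import Vale.Agent.Lib.P040K.Tight

/-!
The classical drawing of Zarankiewicz as an `x`-monotone drawing with the blue vertices in a block:
red vertices on the horizontal axis, blue vertices on the vertical axis, after a small shear that
gives the blue vertices distinct `x`-coordinates. Edges are straight segments.
-/

namespace Vale.Agent.Lib.P040M

open Finset Vale.Agent.Lib.P040

/-- Position on an axis: `-c, …, -1, 1, 2, …`. -/
noncomputable def sh (c i : ℕ) : ℝ := if i < c then (i : ℝ) - c else (i : ℝ) - c + 1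

theorem sh_ne_zero (c i : ℕ) : sh c i ≠ 0 := by
  unfold sh
  split_ifs with h
  · have : (i : ℝ) < c := by exact_mod_cast h
    linarith
  · have : (c : ℝ) ≤ i := by exact_mod_cast not_lt.mp h
    linarith

theorem sh_lt (c : ℕ) {i j : ℕ} (h : i < j) : sh c i < sh c j := by
  have h' : (i : ℝ) < j := by exact_mod_cast h
  unfold sh
  split_ifs <;> linarith

theorem sh_neg {c i : ℕ} (h : i < c) : sh c i ≤ -1 := by
  have : (i : ℝ) + 1 ≤ c := by exact_mod_cast h
  unfold sh
  rw [if_pos h]
  linarith

theorem sh_pos {c i : ℕ} (h : ¬ i < c) : 1 ≤ sh c i := by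
  have : (c : ℝ) ≤ i := by exact_mod_cast not_lt.mp h
  unfold sh
  rw [if_neg h]
  linarith

theorem sh_abs_le (c i n : ℕ) (hi : i < n) (hc : c ≤ n) : sh c i ≤ n ∧ -(n : ℝ) ≤ sh c i := by
  have h1 : (i : ℝ) + 1 ≤ n := by exact_mod_cast hi
  have h2 : (c : ℝ) ≤ n := by exact_mod_cast hc
  have h3 : (0 : ℝ) ≤ i := Nat.cast_nonneg i
  have h4 : (0 : ℝ) ≤ c := Nat.cast_nonneg c
  unfold sh
  split_ifs <;> constructor <;> linarith

/-- The shear factor. -/
noncomputable def shearF (n : ℕ) : ℝ := 1 / (2 * (n : ℝ) + 2)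

theorem shearF_mul_abs (n c i : ℕ) (hi : i < n) (hc : c ≤ n) :
    shearF n * sh c i < 1 ∧ -1 < shearF n * sh c i := by
  obtain ⟨h1, h2⟩ := sh_abs_le c i n hi hc
  have hn : (0 : ℝ) ≤ n := Nat.cast_nonneg n
  have hpos : (0 : ℝ) < 2 * (n : ℝ) + 2 := by linarith
  unfold shearF
  rw [div_mul_eq_mul_div, one_mul]
  constructor
  · rw [div_lt_one hpos]; linarith
  · rw [lt_div_iff₀ hpos]; linarith

/-- Parameter of a point in a segment. -/
theorem exists_param {a b t : ℝ} (hab : a ≠ b) (ht : t ∈ Set.uIcc a b) :
    0 ≤ (t - a) / (b - a) ∧ (t - a) / (b - a) ≤ 1 ∧ t = a + (t - a) / (b - a) * (b - a) := by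
  have hne : b - a ≠ 0 := sub_ne_zero.mpr hab.symm
  refine ⟨?_, ?_, by field_simp; ring⟩
  · rcases lt_or_gt_of_ne hab with h | h
    · rw [Set.uIcc_of_lt h] at ht
      exact div_nonneg (by linarith [ht.1]) (by linarith)
    · rw [Set.uIcc_of_gt h] at ht
      exact div_nonneg_of_nonpos (by linarith [ht.2]) (by linarith)
  · rcases lt_or_gt_of_ne hab with h | h
    · rw [Set.uIcc_of_lt h] at ht
      rw [div_le_one (by linarith)]
      linarith [ht.2]
    · rw [Set.uIcc_of_gt h] at ht
      rw [div_le_one_of_neg (by linarith)]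
      linarith [ht.1]

/-- Two segments from the axes meet only in one quadrant and with opposite orders. -/
theorem quadrant_of_meet {A B C D l u : ℝ} (hA : A ≠ 0) (hB : B ≠ 0) (hAB : A < B) (hC : C ≠ 0)
    (hD : D ≠ 0) (hCD : C ≠ D) (hl0 : 0 ≤ l) (hl1 : l ≤ 1) (hu0 : 0 ≤ u) (hu1 : u ≤ 1)
    (h1 : A * (1 - l) = B * (1 - u)) (h2 : C * l = D * u) :
    0 < A * B ∧ 0 < C * D ∧ ((0 < A * C → D < C) ∧ (¬ 0 < A * C → C < D)) := by
  have hlpos : 0 < l := by
    rcases hl0.lt_or_eq with h | h
    · exact h
    · exfalso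
      subst h
      have : u = 0 := by
        have : D * u = 0 := by rw [← h2]; ring
        exact (mul_eq_zero.mp this).resolve_left hD
      subst this
      apply ne_of_lt hAB
      linarith
  have hupos : 0 < u := by
    rcases hu0.lt_or_eq with h | h
    · exact h
    · exfalso
      subst h
      have : C * l = 0 := by rw [h2]; ring
      exact hC.elim ((mul_eq_zero.mp this).resolve_right hlpos.ne')
  have hl1' : l < 1 := by
    rcases hl1.lt_or_eq with h | h
    · exact h
    · exfalso
      subst h
      have h3 : B * (1 - u) = 0 := by rw [← h1]; ring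
      have : 1 - u = 0 := (mul_eq_zero.mp h3).resolve_left hB
      have hu : u = 1 := by linarith
      subst hu
      apply hCD
      linarith
  have hu1' : u < 1 := by
    rcases hu1.lt_or_eq with h | h
    · exact h
    · exfalso
      subst h
      have h3 : A * (1 - l) = 0 := by rw [h1]; ring
      exact hA.elim ((mul_eq_zero.mp h3).resolve_right (by linarith))
  have hlc : 0 < 1 - l := by linarith
  have huc : 0 < 1 - u := by linarith
  have hABpos : 0 < A * B := by
    have h3 : 0 < (A * (1 - l)) * (A * (1 - l)) := by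
      exact mul_self_pos.mpr (mul_ne_zero hA hlc.ne')
    have h4 : (A * (1 - l)) * (A * (1 - l)) = (A * B) * ((1 - l) * (1 - u)) := by
      nth_rewrite 2 [h1]
      ring
    rw [h4] at h3
    exact (pos_iff_pos_of_mul_pos h3).mpr (mul_pos hlc huc)
  have hCDpos : 0 < C * D := by
    have h3 : 0 < (C * l) * (C * l) := by
      exact mul_self_pos.mpr (mul_ne_zero hC hlpos.ne')
    have h4 : (C * l) * (C * l) = (C * D) * (l * u) := by
      nth_rewrite 2 [h2]
      ring
    rw [h4] at h3
    exact (pos_iff_pos_of_mul_pos h3).mpr (mul_pos hlpos hupos)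
  refine ⟨hABpos, hCDpos, ?_⟩
  -- signs of the coordinates
  rcases lt_or_gt_of_ne hA with hAn | hAp
  · have hBn : B < 0 := by
      by_contra hh
      have : 0 ≤ B := not_lt.mp hh
      nlinarith
    have hlu : u < l := by
      by_contra hh
      have hle : l ≤ u := not_lt.mp hh
      nlinarith
    rcases lt_or_gt_of_ne hC with hCn | hCp
    · have hDn : D < 0 := by
        by_contra hh
        have : 0 ≤ D := not_lt.mp hh
        nlinarith
      refine ⟨fun _ => ?_, fun h => absurd (mul_pos_of_neg_of_neg hAn hCn) h⟩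
      by_contra hh
      have hle : C ≤ D := not_lt.mp hh
      nlinarith
    · have hDp : 0 < D := by
        by_contra hh
        have : D ≤ 0 := not_lt.mp hh
        nlinarith
      refine ⟨fun h => ?_, fun _ => ?_⟩
      · exact absurd h (not_lt.mpr (mul_nonpos_of_nonpos_of_nonneg hAn.le hCp.le))
      · by_contra hh
        have hle : D ≤ C := not_lt.mp hh
        nlinarith
  · have hBp : 0 < B := by linarith
    have hlu : l < u := by
      by_contra hh
      have hle : u ≤ l := not_lt.mp hh
      nlinarith
    rcases lt_or_gt_of_ne hC with hCn | hCp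
    · have hDn : D < 0 := by
        by_contra hh
        have : 0 ≤ D := not_lt.mp hh
        nlinarith
      refine ⟨fun h => ?_, fun _ => ?_⟩
      · exact absurd h (not_lt.mpr (mul_nonpos_of_nonneg_of_nonpos hAp.le hCn.le))
      · by_contra hh
        have hle : D ≤ C := not_lt.mp hh
        nlinarith
    · have hDp : 0 < D := by
        by_contra hh
        have : D ≤ 0 := not_lt.mp hh
        nlinarith
      refine ⟨fun _ => ?_, fun h => absurd (mul_pos hAp hCp) h⟩
      by_contra hh
      have hle : C ≤ D := not_lt.mp hh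
      nlinarith

/-- Zarankiewicz's drawing, sheared. -/
noncomputable def zarDrawing (m n : ℕ) : MonoDrawing m n where
  xR r := sh (m / 2) r.val
  xB b := shearF n * sh (n / 2) b.val
  yR _ := 0
  yB b := sh (n / 2) b.val
  xR_inj := by
    intro r s h
    by_contra hne
    rcases lt_or_gt_of_ne (fun e => hne (Fin.ext e) : r.val ≠ s.val) with hlt | hlt
    · exact (ne_of_lt (sh_lt (m / 2) hlt)) h
    · exact (ne_of_gt (sh_lt (m / 2) hlt)) h
  xB_mono := by
    intro a b h
    have hpos : 0 < shearF n := by
      unfold shearF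
      have : (0 : ℝ) ≤ n := Nat.cast_nonneg n
      positivity
    exact mul_lt_mul_of_pos_left (sh_lt (n / 2) h) hpos
  x_ne := by
    intro r b h
    obtain ⟨h1, h2⟩ := shearF_mul_abs n (n / 2) b.val b.isLt (Nat.div_le_self n 2)
    by_cases hr : r.val < m / 2
    · have := sh_neg hr
      linarith
    · have := sh_pos hr
      linarith
  edge r b t := sh (n / 2) b.val * (t - sh (m / 2) r.val) /
    (shearF n * sh (n / 2) b.val - sh (m / 2) r.val)
  cont := by
    intro r b
    apply Continuous.continuousOn
    fun_prop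
  at_red := by
    intro r b
    simp
  at_blue := by
    intro r b
    have hne : shearF n * sh (n / 2) b.val - sh (m / 2) r.val ≠ 0 := by
      obtain ⟨h1, h2⟩ := shearF_mul_abs n (n / 2) b.val b.isLt (Nat.div_le_self n 2)
      intro h
      by_cases hr : r.val < m / 2
      · have := sh_neg hr
        linarith
      · have := sh_pos hr
        linarith
    exact mul_div_cancel_right₀ _ hne
  avoid_red := by
    intro r b s hsr _
    have hne : shearF n * sh (n / 2) b.val - sh (m / 2) r.val ≠ 0 := by
      obtain ⟨h1, h2⟩ := shearF_mul_abs n (n / 2) b.val b.isLt (Nat.div_le_self n 2)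
      intro h
      by_cases hr : r.val < m / 2
      · have := sh_neg hr
        linarith
      · have := sh_pos hr
        linarith
    have hd : sh (m / 2) s.val - sh (m / 2) r.val ≠ 0 := by
      intro h
      apply hsr
      apply Fin.ext
      by_contra hv
      rcases lt_or_gt_of_ne hv with hlt | hlt
      · have := sh_lt (m / 2) hlt
        linarith
      · have := sh_lt (m / 2) hlt
        linarith
    exact div_ne_zero (mul_ne_zero (sh_ne_zero _ _) hd) hne
  avoid_blue := by
    intro r b c hcb _ h
    have hne : shearF n * sh (n / 2) b.val - sh (m / 2) r.val ≠ 0 := by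
      obtain ⟨h1, h2⟩ := shearF_mul_abs n (n / 2) b.val b.isLt (Nat.div_le_self n 2)
      intro h
      by_cases hr : r.val < m / 2
      · have := sh_neg hr
        linarith
      · have := sh_pos hr
        linarith
    rw [div_eq_iff hne] at h
    have hxi : sh (m / 2) r.val ≠ 0 := sh_ne_zero _ _
    have h3 : sh (m / 2) r.val * (sh (n / 2) b.val - sh (n / 2) c.val) = 0 := by
      linear_combination -h
    have h4 : sh (n / 2) b.val = sh (n / 2) c.val := by
      have := (mul_eq_zero.mp h3).resolve_left hxi
      linarith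
    apply hcb
    apply Fin.ext
    by_contra hv
    rcases lt_or_gt_of_ne hv with hlt | hlt
    · have := sh_lt (n / 2) hlt
      linarith
    · have := sh_lt (n / 2) hlt
      linarith

theorem zarDrawing_blueBlock (m n : ℕ) : (zarDrawing m n).BlueBlock := by
  intro r
  by_cases hr : r.val < m / 2
  · left
    intro b
    obtain ⟨h1, h2⟩ := shearF_mul_abs n (n / 2) b.val b.isLt (Nat.div_le_self n 2)
    have := sh_neg hr
    show sh (m / 2) r.val < shearF n * sh (n / 2) b.val
    linarith
  · right
    intro b
    obtain ⟨h1, h2⟩ := shearF_mul_abs n (n / 2) b.val b.isLt (Nat.div_le_self n 2)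
    have := sh_pos hr
    show shearF n * sh (n / 2) b.val < sh (m / 2) r.val
    linarith

/-- What a meeting in the drawing implies. -/
theorem zarDrawing_meet {m n : ℕ} {r s : Fin m} {x y : Fin n} (hrs : r < s) (hxy : x ≠ y)
    (h : (zarDrawing m n).Meet r x s y) :
    0 < sh (m / 2) r.val * sh (m / 2) s.val ∧ 0 < sh (n / 2) x.val * sh (n / 2) y.val ∧
      ((0 < sh (m / 2) r.val * sh (n / 2) x.val → y < x) ∧
        (¬ 0 < sh (m / 2) r.val * sh (n / 2) x.val → x < y)) := by
  obtain ⟨t, h1, h2, h3⟩ := h
  set A := sh (m / 2) r.val with hA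
  set B := sh (m / 2) s.val with hB
  set C := sh (n / 2) x.val with hC
  set D := sh (n / 2) y.val with hD
  set e := shearF n with he
  have hAB : A < B := sh_lt (m / 2) hrs
  have hCD : C ≠ D := by
    intro hh
    apply hxy
    apply Fin.ext
    by_contra hv
    rcases lt_or_gt_of_ne hv with hlt | hlt
    · have := sh_lt (n / 2) hlt
      rw [← hC, ← hD] at this
      linarith
    · have := sh_lt (n / 2) hlt
      rw [← hC, ← hD] at this
      linarith
  have hn1 : A ≠ e * C := (zarDrawing m n).x_ne r x
  have hn2 : B ≠ e * D := (zarDrawing m n).x_ne s y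
  have h1' : t ∈ Set.uIcc A (e * C) := h1
  have h2' : t ∈ Set.uIcc B (e * D) := h2
  obtain ⟨l0, l1, lt⟩ := exists_param hn1 h1'
  obtain ⟨u0, u1, ut⟩ := exists_param hn2 h2'
  have hval : C * (t - A) / (e * C - A) = D * (t - B) / (e * D - B) := h3
  set l := (t - A) / (e * C - A) with hl
  set u := (t - B) / (e * D - B) with hu
  have e1 : C * l = D * u := by
    rw [hl, hu, ← mul_div_assoc, ← mul_div_assoc]
    exact hval
  have e2 : A * (1 - l) = B * (1 - u) := by
    have : A + l * (e * C - A) = B + u * (e * D - B) := by rw [← lt, ← ut]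
    linear_combination this - e * e1
  obtain ⟨q1, q2, q3, q4⟩ := quadrant_of_meet (sh_ne_zero _ _) (sh_ne_zero _ _) hAB
    (sh_ne_zero _ _) (sh_ne_zero _ _) hCD l0 l1 u0 u1 e2 e1
  refine ⟨q1, q2, fun hh => ?_, fun hh => ?_⟩
  · have := q3 hh
    by_contra hv
    have hle : x ≤ y := not_lt.mp hv
    have hlt : x < y := lt_of_le_of_ne hle hxy
    have := sh_lt (n / 2) (show x.val < y.val from hlt)
    rw [← hC, ← hD] at this
    linarith
  · have := q4 hh
    by_contra hv
    have hle : y ≤ x := not_lt.mp hv
    have hlt : y < x := lt_of_le_of_ne hle (Ne.symm hxy)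
    have := sh_lt (n / 2) (show y.val < x.val from hlt)
    rw [← hC, ← hD] at this
    linarith

/-- Sign of a position on an axis. -/
theorem sh_mul_pos_iff {c d i j : ℕ} :
    0 < sh c i * sh d j ↔ (i < c ↔ j < d) := by
  by_cases hi : i < c <;> by_cases hj : j < d
  · have h1 := sh_neg hi
    have h2 := sh_neg hj
    simp only [hi, hj, iff_true]
    exact mul_pos_of_neg_of_neg (by linarith) (by linarith)
  · have h1 := sh_neg hi
    have h2 := sh_pos hj
    simp only [hi, hj, iff_false, not_true_eq_false, not_lt]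
    exact mul_nonpos_of_nonpos_of_nonneg (by linarith) (by linarith)
  · have h1 := sh_pos hi
    have h2 := sh_neg hj
    simp only [hi, hj, iff_false, not_true_eq_false, false_iff, not_lt]
    exact mul_nonpos_of_nonneg_of_nonpos (by linarith) (by linarith)
  · have h1 := sh_pos hi
    have h2 := sh_pos hj
    simp only [hi, hj, iff_true]
    exact mul_pos (by linarith) (by linarith)

/-- The drawing has at most `zar m * zar n` meeting pairs. -/
theorem zarDrawing_meetingPairs_le (m n : ℕ) :
    (zarDrawing m n).meetingPairs ≤ zar m * zar n := by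
  classical
  rw [← Vale.Agent.Lib.P040K.card_sidePairs_half m, ← Vale.Agent.Lib.P040K.card_sidePairs_half n,
    ← Finset.card_product]
  unfold MonoDrawing.meetingPairs
  refine Finset.card_le_card_of_injOn
    (fun q => ((q.1, q.2.1), (min q.2.2.1 q.2.2.2, max q.2.2.1 q.2.2.2))) ?_ ?_
  · rintro ⟨r, s, x, y⟩ hq
    simp only [Finset.coe_filter, mem_univ, true_and, Set.mem_ofPred_eq] at hq
    obtain ⟨h1, h2, h3⟩ := hq
    obtain ⟨q1, q2, _⟩ := zarDrawing_meet h1 h2 h3
    have e1 := sh_mul_pos_iff.mp q1
    have e2 := sh_mul_pos_iff.mp q2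
    simp only [Finset.coe_product, Set.mem_prod, Finset.mem_coe,
      Vale.Agent.Lib.P040K.sidePairs, mem_filter, mem_univ, true_and]
    refine ⟨⟨h1, e1⟩, ?_⟩
    rcases lt_or_gt_of_ne h2 with hlt | hlt
    · rw [min_eq_left hlt.le, max_eq_right hlt.le]
      exact ⟨hlt, e2⟩
    · rw [min_eq_right hlt.le, max_eq_left hlt.le]
      exact ⟨hlt, e2.symm⟩
  · rintro ⟨r, s, x, y⟩ hq ⟨r', s', x', y'⟩ hq' h
    simp only [Finset.coe_filter, mem_univ, true_and, Set.mem_ofPred_eq] at hq hq'
    simp only [Prod.mk.injEq] at h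
    obtain ⟨⟨rfl, rfl⟩, hmin, hmax⟩ := h
    obtain ⟨h1, h2, h3⟩ := hq
    obtain ⟨h1', h2', h3'⟩ := hq'
    obtain ⟨_, q2, q3, q4⟩ := zarDrawing_meet h1 h2 h3
    obtain ⟨_, q2', q3', q4'⟩ := zarDrawing_meet h1' h2' h3'
    have e2 := sh_mul_pos_iff.mp q2
    by_cases hsame : x = x'
    · subst hsame
      have hyy : y = y' := by
        rcases lt_or_gt_of_ne h2 with hlt | hlt <;> rcases lt_or_gt_of_ne h2' with hlt' | hlt'
        · rw [max_eq_right hlt.le, max_eq_right hlt'.le] at hmax
          exact hmax
        · rw [min_eq_left hlt.le, min_eq_right hlt'.le] at hmin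
          exact absurd hmin (ne_of_gt hlt')
        · rw [max_eq_left hlt.le, max_eq_right hlt'.le] at hmax
          exact absurd hmax (ne_of_lt hlt')
        · rw [min_eq_right hlt.le, min_eq_right hlt'.le] at hmin
          exact hmin
      rw [hyy]
    · exfalso
      have hx' : y = x' ∧ x = y' := by
        rcases lt_or_gt_of_ne h2 with hlt | hlt <;> rcases lt_or_gt_of_ne h2' with hlt' | hlt'
        · rw [min_eq_left hlt.le, min_eq_left hlt'.le] at hmin
          exact absurd hmin hsame
        · rw [min_eq_left hlt.le, min_eq_right hlt'.le] at hmin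
          rw [max_eq_right hlt.le, max_eq_left hlt'.le] at hmax
          exact ⟨hmax, hmin⟩
        · rw [min_eq_right hlt.le, min_eq_left hlt'.le] at hmin
          rw [max_eq_left hlt.le, max_eq_right hlt'.le] at hmax
          exact ⟨hmin, hmax⟩
        · rw [max_eq_left hlt.le, max_eq_left hlt'.le] at hmax
          exact absurd hmax hsame
      obtain ⟨rfl, rfl⟩ := hx'
      by_cases hp : 0 < sh (m / 2) r.val * sh (n / 2) x.val
      · have hp' : 0 < sh (m / 2) r.val * sh (n / 2) y.val :=
          sh_mul_pos_iff.mpr ((sh_mul_pos_iff.mp hp).trans e2)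
        exact lt_asymm (q3 hp) (q3' hp')
      · have hp' : ¬ 0 < sh (m / 2) r.val * sh (n / 2) y.val := fun hh =>
          hp (sh_mul_pos_iff.mpr ((sh_mul_pos_iff.mp hh).trans e2.symm))
        exact lt_asymm (q4 hp) (q4' hp')

/-- The drawing is tight. -/
theorem zarDrawing_meetingPairs (m n : ℕ) :
    (zarDrawing m n).meetingPairs = zar m * zar n :=
  le_antisymm (zarDrawing_meetingPairs_le m n)
    ((zarDrawing m n).zar_le_meetingPairs (zarDrawing_blueBlock m n))

end Vale.Agent.Lib.P040M
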